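import Mathlib

/-!
Many primes in `(Q, 3Q]`, from Chebyshev's bounds in Mathlib.
-/

namespace Vale.Agent.Lib.P057R

open Real

/-- the primes in `(Q, 3Q]` -/
def pool (Q : ℕ) : Finset ℕ := (Finset.Ioc Q (3 * Q)).filter Nat.Prime

lemma mem_pool {Q p : ℕ} : p ∈ pool Q ↔ Q < p ∧ p ≤ 3 * Q ∧ p.Prime := by
  simp [pool, Finset.mem_filter, Finset.mem_Ioc, and_assoc]

lemma pool_card_mul_log_ge (Q : ℕ) (hQ : 1 ≤ Q) :
    (Q : ℝ) * log 2 - log (3 * (Q : ℝ) + 1) - 2 * √(3 * (Q : ℝ)) * log (3 * (Q : ℝ))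
      ≤ ((pool Q).card : ℝ) * log (3 * (Q : ℝ)) := by
  have hU : Nat.primesLE (3 * Q) = Nat.primesLE Q ∪ pool Q := by
    ext p
    simp only [Nat.mem_primesLE, Finset.mem_union, mem_pool]
    constructor
    · rintro ⟨h1, h2⟩
      by_cases h : p ≤ Q
      · exact Or.inl ⟨h, h2⟩
      · exact Or.inr ⟨by omega, h1, h2⟩
    · rintro (⟨h1, h2⟩ | ⟨h1, h2, h3⟩)
      · exact ⟨by omega, h2⟩
      · exact ⟨h2, h3⟩
  have hD : Disjoint (Nat.primesLE Q) (pool Q) := by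
    rw [Finset.disjoint_left]
    intro p hp hp'
    rw [Nat.mem_primesLE] at hp
    rw [mem_pool] at hp'
    omega
  have h1 : Chebyshev.theta ((3 * Q : ℕ) : ℝ) =
      Chebyshev.theta (Q : ℝ) + ∑ p ∈ pool Q, log (p : ℝ) := by
    rw [Chebyshev.theta_eq_sum_primesLE_log, Chebyshev.theta_eq_sum_primesLE_log, hU,
      Finset.sum_union hD]
  have h2 : ∑ p ∈ pool Q, log (p : ℝ) ≤ ((pool Q).card : ℝ) * log (3 * (Q : ℝ)) := by
    have : ∑ p ∈ pool Q, log (p : ℝ) ≤ ∑ _p ∈ pool Q, log (3 * (Q : ℝ)) := by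
      apply Finset.sum_le_sum
      intro p hp
      rw [mem_pool] at hp
      apply Real.log_le_log
      · exact_mod_cast hp.2.2.pos
      · exact_mod_cast hp.2.1
    simpa [Finset.sum_const, nsmul_eq_mul] using this
  have h3 := Chebyshev.theta_ge (3 * Q)
  have h4 := Chebyshev.theta_le_log4_mul_x (x := (Q : ℝ)) (by positivity)
  have h5 : log (4 : ℝ) = 2 * log 2 := by
    rw [show (4 : ℝ) = 2 ^ 2 by norm_num, Real.log_pow]
    norm_num
  push_cast at h3 h1
  rw [h5] at h4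
  nlinarith

/-- for every constant `K` there are at least `K log (Q+1)` primes in `(Q,3Q]`, eventually. -/
theorem pool_large (K : ℝ) (hK : 0 ≤ K) :
    ∀ᶠ Q : ℕ in Filter.atTop, K * log ((Q : ℝ) + 1) ≤ ((pool Q).card : ℝ) := by
  rw [Filter.eventually_atTop]
  refine ⟨⌈(96 * K + 72) ^ 4⌉₊ + 1, ?_⟩
  intro Q hQ
  have hQ1 : 1 ≤ Q := by omega
  have hx : (1 : ℝ) ≤ (Q : ℝ) := by exact_mod_cast hQ1
  have hx2 : (96 * K + 72) ^ 4 ≤ (Q : ℝ) := by
    have h1 : ⌈(96 * K + 72) ^ 4⌉₊ ≤ Q := by omega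
    exact (Nat.le_ceil _).trans (by exact_mod_cast h1)
  set x : ℝ := (Q : ℝ) with hxdef
  set s : ℝ := √(√(4 * x)) with hs
  have hs2 : s ^ 2 = √(4 * x) := by
    rw [hs, Real.sq_sqrt (Real.sqrt_nonneg _)]
  have hs4 : s ^ 4 = 4 * x := by
    have : s ^ 4 = (s ^ 2) ^ 2 := by ring
    rw [this, hs2, Real.sq_sqrt (by positivity)]
  have hs0 : 0 ≤ s := Real.sqrt_nonneg _
  have hs1 : 96 * K + 72 ≤ s := by
    have h72 : 0 ≤ 96 * K + 72 := by positivity
    by_contra hc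
    push Not at hc
    have h5 : s ^ 4 < (96 * K + 72) ^ 4 := by
      exact pow_lt_pow_left₀ hc hs0 (by norm_num)
    nlinarith
  have hs72 : (72 : ℝ) ≤ s := by nlinarith
  -- every logarithm is at most `4 s`
  have hlogle : ∀ y : ℝ, 1 ≤ y → y ≤ 4 * x → log y ≤ 4 * s := by
    intro y hy hy2
    have hpos : 0 < s := by linarith
    have h1 : log y ≤ log (s ^ 4) := by
      apply Real.log_le_log (by linarith)
      rw [hs4]; exact hy2
    rw [Real.log_pow] at h1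
    have h2 : log s ≤ s - 1 := Real.log_le_sub_one_of_pos hpos
    push_cast at h1
    linarith
  have hl1 : log (x + 1) ≤ 4 * s := hlogle _ (by linarith) (by linarith)
  have hl2 : log (3 * x) ≤ 4 * s := hlogle _ (by linarith) (by linarith)
  have hl3 : log (3 * x + 1) ≤ 4 * s := hlogle _ (by linarith) (by linarith)
  have hl2pos : 0 < log (3 * x) := Real.log_pos (by linarith)
  have hsq : √(3 * x) ≤ s ^ 2 := by
    rw [hs2]
    exact Real.sqrt_le_sqrt (by linarith)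
  have hmain := pool_card_mul_log_ge Q hQ1
  rw [← hxdef] at hmain
  have hlog2 := Real.log_two_gt_d9
  have hterm : 2 * √(3 * x) * log (3 * x) ≤ 8 * s ^ 3 := by
    have h0 : 0 ≤ √(3 * x) := Real.sqrt_nonneg _
    calc 2 * √(3 * x) * log (3 * x) ≤ 2 * s ^ 2 * (4 * s) := by
          apply mul_le_mul (by linarith) hl2 hl2pos.le (by positivity)
      _ = 8 * s ^ 3 := by ring
  have hx3 : x * log 2 ≥ s ^ 4 / 4 * 0.69 := by
    have : x = s ^ 4 / 4 := by rw [hs4]; ring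
    rw [this]
    apply mul_le_mul_of_nonneg_left
    · linarith
    · positivity
  have hprodle : K * log (x + 1) * log (3 * x) ≤ 16 * K * s ^ 2 := by
    have h0 : 0 ≤ log (x + 1) := Real.log_nonneg (by linarith)
    calc K * log (x + 1) * log (3 * x) ≤ K * (4 * s) * (4 * s) := by
          apply mul_le_mul (mul_le_mul_of_nonneg_left hl1 hK) hl2 hl2pos.le (by positivity)
      _ = 16 * K * s ^ 2 := by ring
  have hpoly : 16 * K * s ^ 2 + 4 * s + 8 * s ^ 3 ≤ s ^ 4 / 4 * 0.69 := by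
    have hs1' : (1 : ℝ) ≤ s := by linarith
    have a1 : 4 * s ≤ 4 * s ^ 3 := by nlinarith [sq_nonneg s, mul_nonneg hs0 (sub_nonneg.mpr hs1'), pow_nonneg hs0 2]
    have a2 : 16 * K * s ^ 2 ≤ 16 * K * s ^ 3 := by
      have : s ^ 2 ≤ s ^ 3 := by nlinarith [pow_nonneg hs0 2]
      exact mul_le_mul_of_nonneg_left this (by positivity)
    have a3 : s ^ 3 * (s - (96 * K + 72)) ≥ 0 :=
      mul_nonneg (pow_nonneg hs0 3) (sub_nonneg.mpr hs1)
    have a4 : 0 ≤ K * s ^ 3 := by positivity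
    have a5 : 0 ≤ s ^ 3 := pow_nonneg hs0 3
    nlinarith
  have hfin : K * log (x + 1) * log (3 * x) ≤ ((pool Q).card : ℝ) * log (3 * x) := by
    nlinarith
  exact le_of_mul_le_mul_right hfin hl2pos

end Vale.Agent.Lib.P057R
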