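import Mathlib

/-!
Finite differences, interpolation and the strict convexity of spheres along polynomial curves.
-/

namespace Vale.Agent.Lib.P057R

open Polynomial

/-- iterated forward difference -/
def dd {R : Type*} [Ring R] : ℕ → (ℕ → R) → ℕ → R
  | 0, g, j => g j
  | m + 1, g, j => dd m g (j + 1) - dd m g j

lemma dd_congr {R : Type*} [Ring R] (n : ℕ) (g h : ℕ → R) (j : ℕ)
    (hg : ∀ i ≤ n, g (j + i) = h (j + i)) : dd n g j = dd n h j := by
  induction n generalizing j with
  | zero => simpa [dd] using hg 0 le_rfl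
  | succ n ih =>
    simp only [dd]
    rw [ih (j + 1) (fun i hi => by
        have := hg (i + 1) (by omega)
        rwa [show j + 1 + i = j + (i + 1) by ring]),
      ih j (fun i hi => hg i (by omega))]

lemma dd_sub {R : Type*} [Ring R] (n : ℕ) (g h : ℕ → R) (j : ℕ) :
    dd n (fun i => g i - h i) j = dd n g j - dd n h j := by
  induction n generalizing j with
  | zero => simp [dd]
  | succ n ih =>
    simp only [dd]
    rw [ih, ih]
    abel

lemma dd_cast (n : ℕ) (g : ℕ → ℤ) (j : ℕ) :
    ((dd n g j : ℤ) : ℚ) = dd n (fun i => (g i : ℚ)) j := by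
  induction n generalizing j with
  | zero => simp [dd]
  | succ n ih =>
    simp only [dd]
    push_cast
    rw [ih, ih]

lemma dd_eq_fwd (n : ℕ) (f : ℚ → ℚ) (j : ℕ) :
    dd n (fun i : ℕ => f (i : ℚ)) j = ((fwdDiff (1 : ℚ))^[n] f) (j : ℚ) := by
  induction n generalizing j with
  | zero => simp [dd]
  | succ n ih =>
    simp only [dd]
    rw [ih, ih, Function.iterate_succ_apply']
    simp [fwdDiff]

lemma dd_poly {P : ℚ[X]} {n : ℕ} (hP : P.natDegree < n) (j : ℕ) :
    dd n (fun i : ℕ => P.eval (i : ℚ)) j = 0 := by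
  have h := dd_eq_fwd n (fun x => P.eval x) j
  have h2 := Polynomial.fwdDiff_iter_eq_zero_of_degree_lt (R := ℚ) hP
  have h3 : ((fwdDiff (1 : ℚ))^[n] (fun x => P.eval x)) = 0 := h2
  rw [h3] at h
  simpa using h

lemma dd_eq_of_zero {R : Type*} [Ring R] (n : ℕ) (g : ℕ → R) (j : ℕ)
    (hg : ∀ i < n, g (j + i) = 0) : dd n g j = g (j + n) := by
  induction n generalizing j with
  | zero => simp [dd]
  | succ n ih =>
    simp only [dd]
    have h1 := ih (j + 1) (fun i hi => by
      have := hg (i + 1) (by omega)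
      rwa [show j + 1 + i = j + (i + 1) by ring])
    have h2 := ih j (fun i hi => hg i (by omega))
    rw [h1, h2, hg n (by omega), sub_zero]
    congr 1
    ring

/-- agreement with a rational polynomial of degree at most `D` on `[0,k)` -/
def PolySeq (k D : ℕ) (s : ℕ → ℤ) : Prop :=
  ∃ P : ℚ[X], P.natDegree ≤ D ∧ ∀ j < k, (s j : ℚ) = P.eval (j : ℚ)

/-- interpolation: vanishing differences give a polynomial -/
lemma polySeq_of_dd {k D : ℕ} {g : ℕ → ℤ}
    (h : ∀ j, j + D + 1 < k → dd (D + 1) g j = 0) : PolySeq k D g := by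
  classical
  set s : Finset ℕ := Finset.range (D + 1) with hs
  have hinj : Set.InjOn (fun i : ℕ => (i : ℚ)) (s : Set ℕ) := by
    intro a _ b _ hab
    exact Nat.cast_injective hab
  set P : ℚ[X] := Lagrange.interpolate s (fun i : ℕ => (i : ℚ)) (fun i => (g i : ℚ)) with hP
  have hdeg : P.degree < (s.card : ℕ) := Lagrange.degree_interpolate_lt _ hinj
  have hcard : s.card = D + 1 := by simp [hs]
  have hnat : P.natDegree ≤ D := by
    rw [hcard] at hdeg
    by_cases hP0 : P = 0
    · simp [hP0]
    · have h1 := (Polynomial.natDegree_lt_iff_degree_lt hP0).mpr hdeg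
      omega
  refine ⟨P, hnat, ?_⟩
  have hnode : ∀ j ∈ s, (g j : ℚ) = P.eval (j : ℚ) := fun j hj => by
    rw [hP]
    exact (Lagrange.eval_interpolate_at_node (fun i => (g i : ℚ)) hinj hj).symm
  intro j
  induction j using Nat.strong_induction_on with
  | _ j ih =>
    intro hj
    by_cases hjD : j ≤ D
    · exact hnode j (by simp [hs]; omega)
    · obtain ⟨j₀, rfl⟩ : ∃ j₀, j = j₀ + (D + 1) := ⟨j - (D + 1), by omega⟩
      set e : ℕ → ℚ := fun i => (g i : ℚ) - P.eval (i : ℚ) with he
      have h1 : dd (D + 1) e j₀ = e (j₀ + (D + 1)) := by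
        apply dd_eq_of_zero
        intro i hi
        have := ih (j₀ + i) (by omega) (by omega)
        simp only [he]
        rw [this]
        ring
      have h2 : dd (D + 1) e j₀ = 0 := by
        rw [he, dd_sub, ← dd_cast, h j₀ (by omega), dd_poly (by omega)]
        simp
      have h3 : e (j₀ + (D + 1)) = 0 := by rw [← h1, h2]
      simp only [he] at h3
      linarith

/-- polynomials have vanishing differences -/
lemma dd_of_polySeq {k D : ℕ} {g : ℕ → ℤ} (h : PolySeq k D g) (j : ℕ) (hj : j + D + 1 < k) :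
    dd (D + 1) g j = 0 := by
  obtain ⟨P, hP, hg⟩ := h
  have h1 : ((dd (D + 1) g j : ℤ) : ℚ) = 0 := by
    rw [dd_cast]
    rw [dd_congr (D + 1) (fun i => (g i : ℚ)) (fun i : ℕ => P.eval (i : ℚ)) j
      (fun i hi => by
        have := hg (j + i) (by omega)
        simpa using this)]
    exact dd_poly (by omega) j
  exact_mod_cast h1

lemma dd_modEq {n : ℕ} {g h : ℕ → ℤ} {j : ℕ} {p : ℤ}
    (hg : ∀ i ≤ n, g (j + i) ≡ h (j + i) [ZMOD p]) : dd n g j ≡ dd n h j [ZMOD p] := by
  induction n generalizing j with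
  | zero => simpa [dd] using hg 0 le_rfl
  | succ n ih =>
    simp only [dd]
    apply Int.ModEq.sub
    · apply ih
      intro i hi
      have := hg (i + 1) (by omega)
      rwa [show j + 1 + i = j + (i + 1) by ring]
    · apply ih
      intro i hi
      exact hg i (by omega)

lemma dd_bound {n : ℕ} {r : ℕ → ℤ} {j : ℕ} {R : ℤ}
    (hr : ∀ i ≤ n + 1, 0 ≤ r (j + i) ∧ r (j + i) ≤ R) : |dd (n + 1) r j| ≤ 2 ^ n * R := by
  induction n generalizing j with
  | zero =>
    simp only [dd, pow_zero, one_mul]
    have h0 := hr 0 (by omega)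
    have h1 := hr 1 (by omega)
    simp only [add_zero] at h0
    rw [abs_le]
    constructor <;> linarith [h0.1, h0.2, h1.1, h1.2]
  | succ n ih =>
    have h1 := ih (j := j + 1) (fun i hi => by
      have := hr (i + 1) (by omega)
      rwa [show j + 1 + i = j + (i + 1) by ring])
    have h2 := ih (j := j) (fun i hi => hr i (by omega))
    have h3 : dd (n + 1 + 1) r j = dd (n + 1) r (j + 1) - dd (n + 1) r j := rfl
    rw [h3, pow_succ]
    calc |dd (n + 1) r (j + 1) - dd (n + 1) r j|
        ≤ |dd (n + 1) r (j + 1)| + |dd (n + 1) r j| := abs_sub _ _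
      _ ≤ 2 ^ n * R + 2 ^ n * R := add_le_add h1 h2
      _ = 2 ^ n * 2 * R := by ring

/-- the sphere lemma -/
theorem sphere_const {ι : Type*} (T : Finset ι) (P : ι → ℚ[X]) {D k : ℕ}
    (hD : ∀ i ∈ T, (P i).natDegree ≤ D) (hk : 2 * D < k) {c : ℚ}
    (h : ∀ j < k, ∑ i ∈ T, ((P i).eval (j : ℚ)) ^ 2 = c) :
    ∀ i ∈ T, ∀ j < k, (P i).eval (j : ℚ) = (P i).eval 0 := by
  classical
  set Q : ℚ[X] := ∑ i ∈ T, (P i) ^ 2 - C c with hQ
  have hdegsq : ∀ i ∈ T, ((P i) ^ 2).natDegree ≤ 2 * D := by
    intro i hi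
    calc ((P i) ^ 2).natDegree ≤ 2 * (P i).natDegree := Polynomial.natDegree_pow_le
      _ ≤ 2 * D := by have := hD i hi; omega
  have hdegQ : Q.natDegree ≤ 2 * D := by
    rw [hQ]
    refine (Polynomial.natDegree_sub_le _ _).trans ?_
    simp only [natDegree_C]
    refine max_le ?_ (Nat.zero_le _)
    exact Polynomial.natDegree_sum_le_of_forall_le _ _ hdegsq
  have hQ0 : Q = 0 := by
    apply Polynomial.eq_zero_of_natDegree_lt_card_of_eval_eq_zero' Q
      ((Finset.range k).image (fun j : ℕ => (j : ℚ)))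
    · intro x hx
      obtain ⟨j, hj, rfl⟩ := Finset.mem_image.mp hx
      simp only [hQ, eval_sub, eval_finsetSum, eval_pow, eval_C]
      rw [h j (Finset.mem_range.mp hj)]
      ring
    · rw [Finset.card_image_of_injective _ Nat.cast_injective, Finset.card_range]
      omega
  have hstep : ∀ m, (∀ i ∈ T, (P i).natDegree ≤ m) → ∀ i ∈ T, (P i).natDegree = 0 := by
    intro m
    induction m with
    | zero =>
      intro hm i hi
      have := hm i hi
      omega
    | succ m ih =>
      intro hm
      apply ih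
      have hcoeff : ∑ i ∈ T, ((P i).coeff (m + 1)) ^ 2 = 0 := by
        have h1 : Q.coeff ((m + 1) + (m + 1)) = 0 := by rw [hQ0]; simp
        rw [hQ, Polynomial.coeff_sub, Polynomial.finsetSum_coeff, Polynomial.coeff_C] at h1
        simp only [show (m + 1) + (m + 1) ≠ 0 by omega, if_false, sub_zero] at h1
        rw [← h1]
        apply Finset.sum_congr rfl
        intro i hi
        rw [sq, sq, Polynomial.coeff_mul_add_eq_of_natDegree_le (hm i hi) (hm i hi)]
      have hz := (Finset.sum_eq_zero_iff_of_nonneg (fun i _ => sq_nonneg _)).mp hcoeff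
      intro i hi
      rw [Polynomial.natDegree_le_iff_coeff_eq_zero]
      intro N hN
      by_cases hNm : N = m + 1
      · subst hNm
        have := hz i hi
        exact pow_eq_zero_iff (by norm_num) |>.mp this
      · exact Polynomial.coeff_eq_zero_of_natDegree_lt (by
          have := hm i hi
          omega)
  have hdeg0 := hstep D hD
  intro i hi j _
  have h0 := hdeg0 i hi
  rw [Polynomial.eq_C_of_natDegree_eq_zero h0]
  simp

end Vale.Agent.Lib.P057R
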