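import Mathlib
import Vale.Agent.Lib.P057R.Poly

/-!
The recursive step: from progressions-free sets for polynomial curves of degree `2D`
to the same for degree `D`.
-/

namespace Vale.Agent.Lib.P057R

open Polynomial

/-- `S` has no nonconstant polynomial curve of degree at most `D` with `k` points, modulo `M`. -/
def ModFree (k D M : ℕ) (S : Finset ℕ) : Prop :=
  ∀ s : ℕ → ℤ, PolySeq k D s → (∀ j < k, ∃ u ∈ S, (u : ℤ) ≡ s j [ZMOD M]) →
    ∀ j < k, s j ≡ s 0 [ZMOD M]

lemma modFree_singleton (k D M : ℕ) : ModFree k D M {0} := by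
  intro s _ h j hj
  obtain ⟨u, hu, hu'⟩ := h j hj
  rw [Finset.mem_singleton] at hu
  subst hu
  by_cases hk : 0 < k
  · obtain ⟨v, hv, hv'⟩ := h 0 hk
    rw [Finset.mem_singleton] at hv
    subst hv
    exact hu'.symm.trans hv'
  · omega

/-- integers below the product whose digits lie in the prescribed sets -/
def goodG (dig : ℕ → ℕ → Prop) [∀ p r, Decidable (dig p r)] (T : Finset ℕ) : Finset ℕ :=
  (Finset.range (∏ p ∈ T, p)).filter (fun x => ∀ p ∈ T, dig p (x % p))

/-- Chinese remaindering counts the good integers exactly. -/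
theorem card_goodG (dig : ℕ → ℕ → Prop) [∀ p r, Decidable (dig p r)] {T : Finset ℕ}
    (hT : ∀ p ∈ T, p.Prime) :
    (goodG dig T).card = ∏ p ∈ T, ((Finset.range p).filter (dig p)).card := by
  classical
  induction T using Finset.induction_on with
  | empty =>
    have h0 : goodG dig (∅ : Finset ℕ) = {0} := by
      ext x
      simp [goodG]
    simp [h0]
  | insert q S hq ih =>
    have hS' : ∀ p ∈ S, p.Prime := fun p hp => hT p (Finset.mem_insert_of_mem hp)
    have hqp : q.Prime := hT q (Finset.mem_insert_self q S)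
    have hco : Nat.Coprime q (∏ p ∈ S, p) := by
      apply Nat.Coprime.prod_right
      intro p hp
      rw [Nat.coprime_primes hqp (hS' p hp)]
      rintro rfl
      exact hq hp
    rw [Finset.prod_insert hq, ← ih hS']
    set M := ∏ p ∈ S, p with hM
    have hMpos : 0 < M := Finset.prod_pos (fun p hp => (hS' p hp).pos)
    have hprod : ∏ p ∈ insert q S, p = q * M := Finset.prod_insert hq
    have hcard : (goodG dig (insert q S)).card =
        (((Finset.range q).filter (dig q)) ×ˢ (goodG dig S)).card := by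
      apply Finset.card_bij (fun x _ => (x % q, x % M))
      · intro x hx
        simp only [goodG, Finset.mem_filter, Finset.mem_range, hprod] at hx
        simp only [Finset.mem_product, Finset.mem_filter, Finset.mem_range, goodG, ← hM]
        refine ⟨⟨Nat.mod_lt _ hqp.pos, hx.2 q (Finset.mem_insert_self q S)⟩,
          Nat.mod_lt _ hMpos, ?_⟩
        intro p hp
        have hdvd : p ∣ M := Finset.dvd_prod_of_mem _ hp
        rw [Nat.mod_mod_of_dvd x hdvd]
        exact hx.2 p (Finset.mem_insert_of_mem hp)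
      · intro x hx y hy hxy
        simp only [goodG, Finset.mem_filter, Finset.mem_range, hprod] at hx hy
        simp only [Prod.mk.injEq] at hxy
        have h1 : x ≡ y [MOD q] := hxy.1
        have h2 : x ≡ y [MOD M] := hxy.2
        have h3 : x ≡ y [MOD q * M] := (Nat.modEq_and_modEq_iff_modEq_mul hco).mp ⟨h1, h2⟩
        exact Nat.ModEq.eq_of_lt_of_lt h3 hx.1 hy.1
      · rintro ⟨u, v⟩ huv
        simp only [Finset.mem_product, Finset.mem_filter, Finset.mem_range, goodG,
          ← hM] at huv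
        obtain ⟨⟨hu, hu'⟩, hv, hv'⟩ := huv
        obtain ⟨k, hk, hk1, hk2⟩ : ∃ k, k < q * M ∧ k % q = u ∧ k % M = v := by
          refine ⟨Nat.chineseRemainder hco u v,
            Nat.chineseRemainder_lt_mul hco u v hqp.ne_zero hMpos.ne', ?_, ?_⟩
          · have h := (Nat.chineseRemainder hco u v).2.1
            exact Eq.trans h (Nat.mod_eq_of_lt hu)
          · have h := (Nat.chineseRemainder hco u v).2.2
            exact Eq.trans h (Nat.mod_eq_of_lt hv)
        refine ⟨k, ?_, by simp [hk1, hk2]⟩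
        simp only [goodG, Finset.mem_filter, Finset.mem_range, hprod]
        refine ⟨hk, ?_⟩
        intro p hp
        rcases Finset.mem_insert.mp hp with rfl | hp'
        · rwa [hk1]
        · have hdvd : p ∣ M := Finset.dvd_prod_of_mem _ hp'
          rw [← Nat.mod_mod_of_dvd k hdvd, hk2]
          exact hv' p hp'
    rw [hcard, Finset.card_product]

/-- the squared norm of the vector of labels -/
def Fnorm (L : ℕ → ℕ → ℕ) (T : Finset ℕ) (x : ℕ) : ℕ := ∑ p ∈ T, (L p (x % p)) ^ 2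

/-- the good integers whose translated norm falls in `S` -/
def Sset (dig : ℕ → ℕ → Prop) [∀ p r, Decidable (dig p r)] (L : ℕ → ℕ → ℕ) (T : Finset ℕ)
    (M₁ : ℕ) (S : Finset ℕ) (t : ℕ) : Finset ℕ :=
  (goodG dig T).filter (fun x => (Fnorm L T x + t) % M₁ ∈ S)

/-- translation is a bijection of the residues -/
lemma card_translate {M : ℕ} (hM : 0 < M) {S : Finset ℕ} (hS : S ⊆ Finset.range M) (c : ℕ) :
    ((Finset.range M).filter (fun t => (c + t) % M ∈ S)).card = S.card := by
  apply Finset.card_bij (fun t _ => (c + t) % M)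
  · intro t ht
    exact (Finset.mem_filter.mp ht).2
  · intro a ha b hb hab
    have ha' := Finset.mem_range.mp (Finset.mem_filter.mp ha).1
    have hb' := Finset.mem_range.mp (Finset.mem_filter.mp hb).1
    have h1 : c + a ≡ c + b [MOD M] := hab
    exact Nat.ModEq.eq_of_lt_of_lt (Nat.ModEq.add_left_cancel' c h1) ha' hb'
  · intro u hu
    have hu' : u < M := Finset.mem_range.mp (hS hu)
    refine ⟨(u + (M - c % M)) % M, ?_, ?_⟩
    · refine Finset.mem_filter.mpr ⟨Finset.mem_range.mpr (Nat.mod_lt _ hM), ?_⟩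
      have : (c + (u + (M - c % M)) % M) % M = u := by
        have h2 : c % M < M := Nat.mod_lt _ hM
        rw [Nat.add_mod_mod]
        have h3 : c + (u + (M - c % M)) = u + M * (c / M + 1) := by
          have := Nat.div_add_mod c M
          have h4 : M * (c / M + 1) = M * (c / M) + M := by ring
          omega
        rw [h3, Nat.add_mul_mod_self_left, Nat.mod_eq_of_lt hu']
      rw [this]
      exact hu
    · have h2 : c % M < M := Nat.mod_lt _ hM
      show (c + (u + (M - c % M)) % M) % M = u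
      rw [Nat.add_mod_mod]
      have h3 : c + (u + (M - c % M)) = u + M * (c / M + 1) := by
        have := Nat.div_add_mod c M
        have h4 : M * (c / M + 1) = M * (c / M) + M := by ring
        omega
      rw [h3, Nat.add_mul_mod_self_left, Nat.mod_eq_of_lt hu']

/-- averaging over translates. -/
theorem exists_translate (dig : ℕ → ℕ → Prop) [∀ p r, Decidable (dig p r)] (L : ℕ → ℕ → ℕ)
    (T : Finset ℕ) {M₁ : ℕ} (hM : 0 < M₁) {S : Finset ℕ} (hS : S ⊆ Finset.range M₁) :
    ∃ t, (goodG dig T).card * S.card ≤ M₁ * (Sset dig L T M₁ S t).card := by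
  classical
  by_contra hcon
  push Not at hcon
  have hsum : ∑ t ∈ Finset.range M₁, (Sset dig L T M₁ S t).card =
      (goodG dig T).card * S.card := by
    simp only [Sset, Finset.card_filter]
    rw [Finset.sum_comm]
    rw [Finset.card_eq_sum_ones, Finset.sum_mul]
    apply Finset.sum_congr rfl
    intro x _
    rw [one_mul, ← card_translate hM hS (Fnorm L T x), Finset.card_filter]
  have hlt : ∑ t ∈ Finset.range M₁, M₁ * (Sset dig L T M₁ S t).card <
      ∑ _t ∈ Finset.range M₁, (goodG dig T).card * S.card :=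
    Finset.sum_lt_sum_of_nonempty (by simpa using hM.ne') (fun t _ => hcon t)
  rw [← Finset.mul_sum, hsum, Finset.sum_const, Finset.card_range, smul_eq_mul] at hlt
  exact lt_irrefl _ hlt

/-- the arcs of level `D` -/
def digA (D p r : ℕ) : Prop := 2 ^ D * r < p

instance (D p r : ℕ) : Decidable (digA D p r) := by unfold digA; infer_instance

/-- a product of primes divides a number divisible by each of them -/
lemma prod_dvd_int {T : Finset ℕ} (hT : ∀ p ∈ T, p.Prime) {z : ℤ}
    (h : ∀ p ∈ T, (p : ℤ) ∣ z) : ((∏ p ∈ T, p : ℕ) : ℤ) ∣ z := by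
  have h1 : ∏ p ∈ T, p ∣ z.natAbs :=
    Finset.prod_primes_dvd _ (fun p hp => (hT p hp).prime)
      (fun p hp => Int.natCast_dvd.mp (h p hp))
  exact Int.natCast_dvd.mpr h1

/-- the digit sequence of a polynomial curve with digits in the arcs is a polynomial -/
lemma digit_poly {k D p : ℕ} (hp : 0 < p) {s : ℕ → ℤ} (hs : PolySeq k D s)
    (hdig : ∀ j < k, 2 ^ D * (s j % (p : ℤ)) < (p : ℤ)) :
    PolySeq k D (fun j => s j % (p : ℤ)) := by
  apply polySeq_of_dd
  intro j hj
  set r : ℕ → ℤ := fun j => s j % (p : ℤ) with hr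
  have hp' : (0 : ℤ) < (p : ℤ) := by exact_mod_cast hp
  have h1 : dd (D + 1) r j ≡ dd (D + 1) s j [ZMOD (p : ℤ)] := by
    apply dd_modEq
    intro i _
    exact Int.mod_modEq _ _
  rw [dd_of_polySeq hs j hj] at h1
  have h2 : (p : ℤ) ∣ dd (D + 1) r j := Int.modEq_zero_iff_dvd.mp h1
  have hpow : (0 : ℤ) < 2 ^ D := by positivity
  set R : ℤ := ((p : ℤ) - 1) / 2 ^ D with hR
  have h3 : |dd (D + 1) r j| ≤ 2 ^ D * R := by
    apply dd_bound
    intro i hi
    have hik : j + i < k := by omega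
    refine ⟨Int.emod_nonneg _ hp'.ne', ?_⟩
    have := hdig (j + i) hik
    rw [hR, Int.le_ediv_iff_mul_le hpow]
    simp only [hr]
    nlinarith
  have h4 : 2 ^ D * R ≤ (p : ℤ) - 1 := by
    rw [hR]
    exact Int.mul_ediv_self_le hpow.ne'
  have h5 : |dd (D + 1) r j| < (p : ℤ) := by omega
  exact Int.eq_zero_of_abs_lt_dvd h2 h5

/-- the sum of squares of polynomial curves, translated, is a polynomial curve -/
lemma polySeq_sum_sq {k D : ℕ} {T : Finset ℕ} {r : ℕ → ℕ → ℤ} (c : ℤ)
    (hr : ∀ p ∈ T, PolySeq k D (r p)) :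
    PolySeq k (2 * D) (fun j => ∑ p ∈ T, (r p j) ^ 2 + c) := by
  classical
  choose! P hP hP' using hr
  refine ⟨∑ p ∈ T, (P p) ^ 2 + C (c : ℚ), ?_, ?_⟩
  · refine (Polynomial.natDegree_add_le _ _).trans ?_
    simp only [natDegree_C]
    refine max_le ?_ (Nat.zero_le _)
    apply Polynomial.natDegree_sum_le_of_forall_le
    intro p hp
    calc ((P p) ^ 2).natDegree ≤ 2 * (P p).natDegree := Polynomial.natDegree_pow_le
      _ ≤ 2 * D := by have := hP p hp; omega
  · intro j hj
    simp only [eval_add, eval_finsetSum, eval_pow, eval_C]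
    push_cast
    congr 1
    apply Finset.sum_congr rfl
    intro p hp
    rw [hP' p hp j hj]

/-- two equal-residue bounded integers are equal -/
lemma eq_of_modEq_of_bound {a b M : ℤ} (h : a ≡ b [ZMOD M]) (ha : 0 ≤ a) (hb : 0 ≤ b)
    (ha' : a < M) (hb' : b < M) : a = b := by
  have h1 : a % M = b % M := h
  rwa [Int.emod_eq_of_lt ha ha', Int.emod_eq_of_lt hb hb'] at h1

/-- the recursive step -/
theorem step_modfree {k D M₁ cap t : ℕ} {T S₁ : Finset ℕ} (hk : 2 * D < k)
    (hT : ∀ p ∈ T, p.Prime ∧ p ≤ cap) (hM₁ : T.card * cap ^ 2 < M₁)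
    (h₁ : ModFree k (2 * D) M₁ S₁) :
    ModFree k D (∏ p ∈ T, p) (Sset (digA D) (fun _ r => r) T M₁ S₁ t) := by
  classical
  intro s hs hmem
  choose! u hu hu' using hmem
  have hTp : ∀ p ∈ T, p.Prime := fun p hp => (hT p hp).1
  have hk0 : 0 < k := by omega
  -- digits
  have hmodp : ∀ p ∈ T, ∀ j < k, ((u j % p : ℕ) : ℤ) = s j % (p : ℤ) := by
    intro p hp j hj
    have h1 : (p : ℤ) ∣ ((∏ q ∈ T, q : ℕ) : ℤ) := by
      exact_mod_cast Finset.dvd_prod_of_mem _ hp
    have h2 : ((u j : ℕ) : ℤ) ≡ s j [ZMOD (p : ℤ)] := (hu' j hj).of_dvd h1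
    push_cast
    exact h2
  have hugood : ∀ j < k, ∀ p ∈ T, 2 ^ D * (u j % p) < p := by
    intro j hj p hp
    have := (Finset.mem_filter.mp (hu j hj))
    have h2 := Finset.mem_filter.mp this.1
    exact h2.2 p hp
  have hdig : ∀ p ∈ T, ∀ j < k, 2 ^ D * (s j % (p : ℤ)) < (p : ℤ) := by
    intro p hp j hj
    rw [← hmodp p hp j hj]
    exact_mod_cast hugood j hj p hp
  set r : ℕ → ℕ → ℤ := fun p j => s j % (p : ℤ) with hr
  have hrpoly : ∀ p ∈ T, PolySeq k D (r p) := fun p hp =>
    digit_poly (hTp p hp).pos hs (hdig p hp)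
  have hF : ∀ j < k, ((Fnorm (fun _ r => r) T (u j) : ℕ) : ℤ) = ∑ p ∈ T, (r p j) ^ 2 := by
    intro j hj
    simp only [Fnorm]
    push_cast
    apply Finset.sum_congr rfl
    intro p hp
    have := hmodp p hp j hj
    push_cast at this
    rw [this]
  set Φ : ℕ → ℤ := fun j => ∑ p ∈ T, (r p j) ^ 2 + (t : ℤ) with hΦ
  have hΦpoly : PolySeq k (2 * D) Φ := polySeq_sum_sq (t : ℤ) hrpoly
  have hM₁pos : 0 < M₁ := by omega
  have hΦmem : ∀ j < k, ∃ v ∈ S₁, (v : ℤ) ≡ Φ j [ZMOD (M₁ : ℕ)] := by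
    intro j hj
    have h1 := (Finset.mem_filter.mp (hu j hj)).2
    refine ⟨_, h1, ?_⟩
    have h2 : Φ j = ((Fnorm (fun _ r => r) T (u j) + t : ℕ) : ℤ) := by
      simp only [hΦ]
      push_cast
      rw [hF j hj]
    rw [h2]
    push_cast
    exact Int.mod_modEq _ _
  have hcong := h₁ Φ hΦpoly hΦmem
  -- bounds
  have hsqnn : ∀ j, 0 ≤ ∑ p ∈ T, (r p j) ^ 2 := fun j =>
    Finset.sum_nonneg (fun p _ => sq_nonneg _)
  have hsqle : ∀ j, ∑ p ∈ T, (r p j) ^ 2 ≤ (T.card : ℤ) * (cap : ℤ) ^ 2 := by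
    intro j
    have : ∑ p ∈ T, (r p j) ^ 2 ≤ ∑ _p ∈ T, (cap : ℤ) ^ 2 := by
      apply Finset.sum_le_sum
      intro p hp
      have hp0 : (0 : ℤ) < (p : ℤ) := by exact_mod_cast (hTp p hp).pos
      have h1 : 0 ≤ r p j := Int.emod_nonneg _ hp0.ne'
      have h2 : r p j < (p : ℤ) := Int.emod_lt_of_pos _ hp0
      have h3 : (p : ℤ) ≤ (cap : ℤ) := by exact_mod_cast (hT p hp).2
      exact pow_le_pow_left₀ h1 (by omega) 2
    simpa [Finset.sum_const, nsmul_eq_mul] using this
  have hM₁z : (T.card : ℤ) * (cap : ℤ) ^ 2 < (M₁ : ℤ) := by exact_mod_cast hM₁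
  have hsum : ∀ j < k, ∑ p ∈ T, (r p j) ^ 2 = ∑ p ∈ T, (r p 0) ^ 2 := by
    intro j hj
    have h1 : Φ j ≡ Φ 0 [ZMOD (M₁ : ℕ)] := hcong j hj
    have h2 : ∑ p ∈ T, (r p j) ^ 2 ≡ ∑ p ∈ T, (r p 0) ^ 2 [ZMOD (M₁ : ℕ)] := by
      simp only [hΦ] at h1
      exact Int.ModEq.add_right_cancel' _ h1
    exact eq_of_modEq_of_bound h2 (hsqnn j) (hsqnn 0) (by linarith [hsqle j])
      (by linarith [hsqle 0])
  -- the sphere lemma
  choose! P hPdeg hPev using hrpoly
  have hsq : ∀ j < k, ∑ p ∈ T, ((P p).eval (j : ℚ)) ^ 2 = ((∑ p ∈ T, (r p 0) ^ 2 : ℤ) : ℚ) := by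
    intro j hj
    rw [← hsum j hj]
    push_cast
    apply Finset.sum_congr rfl
    intro p hp
    rw [hPev p hp j hj]
  have hconst := sphere_const T P hPdeg hk hsq
  intro j hj
  have hdvd : ((∏ q ∈ T, q : ℕ) : ℤ) ∣ s 0 - s j := by
    apply prod_dvd_int hTp
    intro p hp
    have h1 := hconst p hp j hj
    have h2 := hPev p hp j hj
    have h3 := hPev p hp 0 hk0
    have h4 : r p j = r p 0 := by
      have h5 : ((r p j : ℤ) : ℚ) = ((r p 0 : ℤ) : ℚ) := by
        rw [h2, h1, h3]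
        simp
      exact_mod_cast h5
    have h6 : s j ≡ s 0 [ZMOD (p : ℤ)] := h4
    exact h6.dvd
  exact (Int.modEq_iff_dvd.mpr hdvd)

/-- the digit count of the arcs -/
lemma digA_card (D p : ℕ) : (p : ℝ) / 2 ^ D ≤ (((Finset.range p).filter (digA D p)).card : ℝ) := by
  have hpow : 0 < 2 ^ D := by positivity
  have hsub : Finset.range ((p + 2 ^ D - 1) / 2 ^ D) ⊆ (Finset.range p).filter (digA D p) := by
    intro x hx
    rw [Finset.mem_range, Nat.lt_iff_add_one_le, Nat.le_div_iff_mul_le hpow] at hx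
    have h1 : (x + 1) * 2 ^ D = 2 ^ D * x + 2 ^ D := by ring
    have h2 : 2 ^ D * x < p := by omega
    refine Finset.mem_filter.mpr ⟨Finset.mem_range.mpr ?_, h2⟩
    have h3 : x ≤ 2 ^ D * x := Nat.le_mul_of_pos_left _ hpow
    omega
  have h1 := Finset.card_le_card hsub
  rw [Finset.card_range] at h1
  have h2 : p ≤ ((p + 2 ^ D - 1) / 2 ^ D) * 2 ^ D := by
    have h3 := Nat.div_add_mod (p + 2 ^ D - 1) (2 ^ D)
    have h4 := Nat.mod_lt (p + 2 ^ D - 1) hpow
    have h5 : 2 ^ D * ((p + 2 ^ D - 1) / 2 ^ D) = ((p + 2 ^ D - 1) / 2 ^ D) * 2 ^ D := by ring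
    omega
  have h3 : p ≤ ((Finset.range p).filter (digA D p)).card * 2 ^ D :=
    h2.trans (Nat.mul_le_mul_right _ h1)
  have hr : (0 : ℝ) < 2 ^ D := by positivity
  rw [div_le_iff₀ hr]
  exact_mod_cast h3

/-- the density of the good integers at level `D` -/
lemma goodG_digA_card {D : ℕ} {T : Finset ℕ} (hT : ∀ p ∈ T, p.Prime) :
    ((∏ p ∈ T, p : ℕ) : ℝ) * ((1 / 2 ^ D : ℝ) ^ T.card) ≤ ((goodG (digA D) T).card : ℝ) := by
  rw [card_goodG _ hT]
  push_cast
  rw [← Finset.prod_const, ← Finset.prod_mul_distrib]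
  apply Finset.prod_le_prod
  · intro p _
    positivity
  · intro p _
    calc (p : ℝ) * (1 / 2 ^ D) = (p : ℝ) / 2 ^ D := by ring
      _ ≤ _ := digA_card D p

end Vale.Agent.Lib.P057R
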