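import Mathlib
import Vale.Agent.Lib.P057R.Step
import Vale.Agent.Lib.P057R.Primes

/-!
The asymptotics of the recursion.
-/

namespace Vale.Agent.Lib.P057R

open Real

/-- subadditivity of roots, with a crude bound for the second term -/
lemma rpow_add_le_aux {m : ℕ} (hm : 1 ≤ m) {x R : ℝ} (hx : 0 ≤ x) (hR : 0 ≤ R) :
    (x + R) ^ ((1 : ℝ) / m) ≤ x ^ ((1 : ℝ) / m) + R + 1 := by
  have hm' : (1 : ℝ) ≤ (m : ℝ) := by exact_mod_cast hm
  have hp0 : (0 : ℝ) ≤ (1 : ℝ) / m := by positivity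
  have hp1 : (1 : ℝ) / m ≤ 1 := by
    rw [div_le_one (by linarith)]
    exact hm'
  have h1 := Real.rpow_add_le_add_rpow hx hR hp0 hp1
  have h2 : R ^ ((1 : ℝ) / m) ≤ R + 1 := by
    by_cases hR1 : R ≤ 1
    · have := Real.rpow_le_one hR hR1 hp0
      linarith
    · have hR1' : 1 ≤ R := by linarith
      have := Real.rpow_le_rpow_of_exponent_le hR1' hp1
      rw [Real.rpow_one] at this
      linarith
  linarith

/-- the `m`-th root of `2 τ w^m` -/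
lemma root_eq {m : ℕ} (hm : 1 ≤ m) {τ w : ℝ} (hτ : 0 < τ) (hw : 0 ≤ w) :
    (2 * τ * w ^ m) ^ ((1 : ℝ) / m) = (2 * τ) ^ ((1 : ℝ) / m) * w := by
  rw [Real.mul_rpow (by positivity) (by positivity), one_div,
    Real.pow_rpow_inv_natCast hw (by omega)]

/-- the bound on `(log Z)^(1/m)` -/
lemma log_root_bound {m : ℕ} (hm : 1 ≤ m) {τ w A Z : ℝ} (hτ : 0 < τ) (hw : 0 ≤ w) (hA : 1 ≤ A)
    (hZ1 : 1 ≤ Z) (hZ : Z ≤ A * (w + 1) * exp (2 * τ * w ^ m)) :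
    (log Z) ^ ((1 : ℝ) / m) ≤ (2 * τ) ^ ((1 : ℝ) / m) * w + (log A + log (w + 1)) + 1 := by
  have hApos : 0 < A := by linarith
  have hw1 : 0 < w + 1 := by linarith
  have hR : 0 ≤ log A + log (w + 1) :=
    add_nonneg (Real.log_nonneg hA) (Real.log_nonneg (by linarith))
  have hlog : log Z ≤ 2 * τ * w ^ m + (log A + log (w + 1)) := by
    have h1 : log Z ≤ log (A * (w + 1) * exp (2 * τ * w ^ m)) :=
      Real.log_le_log (by linarith) hZ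
    rw [Real.log_mul (by positivity) (Real.exp_pos _).ne', Real.log_mul hApos.ne' hw1.ne',
      Real.log_exp] at h1
    linarith
  have hlog0 : 0 ≤ log Z := Real.log_nonneg hZ1
  have hm' : (0 : ℝ) < (m : ℝ) := by
    have : 0 < m := by omega
    exact_mod_cast this
  calc (log Z) ^ ((1 : ℝ) / m) ≤ (2 * τ * w ^ m + (log A + log (w + 1))) ^ ((1 : ℝ) / m) :=
        Real.rpow_le_rpow hlog0 hlog (by positivity)
    _ ≤ (2 * τ * w ^ m) ^ ((1 : ℝ) / m) + (log A + log (w + 1)) + 1 :=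
        rpow_add_le_aux hm (by positivity) hR
    _ = _ := by rw [root_eq hm hτ hw]

/-- logarithms are small compared with linear functions -/
lemma eventually_log_small {C δ : ℝ} (hC : 0 ≤ C) (hδ : 0 < δ) :
    ∃ w₁ : ℝ, ∀ w : ℝ, w₁ ≤ w → C * log (w + 1) ≤ δ * (w + 1) := by
  have h := Real.isLittleO_log_id_atTop.def (c := δ / (C + 1)) (by positivity)
  obtain ⟨x₀, hx₀⟩ := Filter.eventually_atTop.mp h
  refine ⟨max x₀ 0, fun w hw => ?_⟩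
  have hw0 : 0 ≤ w := le_trans (le_max_right _ _) hw
  have hwx : x₀ ≤ w + 1 := by
    have := le_trans (le_max_left _ _) hw
    linarith
  have h1 := hx₀ (w + 1) hwx
  simp only [id, Real.norm_eq_abs] at h1
  have h2 : log (w + 1) ≤ δ / (C + 1) * |w + 1| := (le_abs_self _).trans h1
  rw [abs_of_nonneg (by linarith)] at h2
  have hC1 : 0 < C + 1 := by linarith
  calc C * log (w + 1) ≤ (C + 1) * log (w + 1) := by
        apply mul_le_mul_of_nonneg_right (by linarith)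
        exact Real.log_nonneg (by linarith)
    _ ≤ (C + 1) * (δ / (C + 1) * (w + 1)) := mul_le_mul_of_nonneg_left h2 hC1.le
    _ = δ * (w + 1) := by field_simp

/-- the real inequality behind the recursive choice of parameters -/
theorem real_key {β c τ ε C₀ A : ℝ} {m : ℕ} (hm : 1 ≤ m) (hβ : 0 ≤ β) (hc : 0 ≤ c) (hτ : 0 < τ)
    (hε : 0 < ε) (hA : 1 ≤ A) :
    ∃ ε₁ : ℝ, 0 < ε₁ ∧ ∃ w₀ : ℝ, ∀ w : ℝ, w₀ ≤ w → 0 ≤ w → ∀ d Z : ℝ, 1 ≤ Z → d ≤ w / τ + 1 →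
      Z ≤ A * (w + 1) * exp (2 * τ * w ^ m) →
      β * d + (c + ε₁) * (log Z) ^ ((1 : ℝ) / m) + C₀ ≤
        (β / τ + c * (2 * τ) ^ ((1 : ℝ) / m) + ε) * w := by
  set a : ℝ := (2 * τ) ^ ((1 : ℝ) / m) with ha
  have hapos : 0 < a := Real.rpow_pos_of_pos (by positivity) _
  set ε₁ : ℝ := ε / (2 * a) with hε₁
  have hε₁pos : 0 < ε₁ := by positivity
  have hε₁a : ε₁ * a = ε / 2 := by
    rw [hε₁]
    field_simp
  refine ⟨ε₁, hε₁pos, ?_⟩
  set C : ℝ := c + ε₁ with hC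
  have hCnn : 0 ≤ C := by positivity
  obtain ⟨w₁, hw₁⟩ := eventually_log_small hCnn (δ := ε / 4) (by positivity)
  set K : ℝ := β + C₀ + C * (log A + 1) with hK
  refine ⟨max w₁ ((4 * K + ε) / ε), ?_⟩
  intro w hw hw0 d Z hZ1 hd hZ
  have hw1 : w₁ ≤ w := le_trans (le_max_left _ _) hw
  have hw2 : (4 * K + ε) / ε ≤ w := le_trans (le_max_right _ _) hw
  have hl := hw₁ w hw1
  have hroot := log_root_bound hm hτ hw0 hA hZ1 hZ
  rw [← ha] at hroot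
  have h1 : β * d ≤ β * (w / τ + 1) := mul_le_mul_of_nonneg_left hd hβ
  have h2 : C * (log Z) ^ ((1 : ℝ) / m) ≤ C * (a * w + (log A + log (w + 1)) + 1) :=
    mul_le_mul_of_nonneg_left hroot hCnn
  have h3 : 4 * K + ε ≤ w * ε := by
    rwa [div_le_iff₀ hε] at hw2
  have h4 : C * a = c * a + ε / 2 := by
    rw [hC, add_mul, hε₁a]
  have h5 : β * (w / τ + 1) = β / τ * w + β := by
    field_simp
  have h6 : C * (a * w + (log A + log (w + 1)) + 1) =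
      (C * a) * w + C * (log A + 1) + C * log (w + 1) := by ring
  rw [h6, h4] at h2
  rw [h5] at h1
  have h7 : (β / τ + c * a + ε) * w = β / τ * w + (c * a + ε / 2) * w + ε / 2 * w := by ring
  rw [h7]
  nlinarith

/-- the inductive form of the construction -/
def Claim (k D : ℕ) (c : ℝ) (m : ℕ) : Prop :=
  ∀ ε : ℝ, 0 < ε → ∃ X₀ : ℕ, ∀ X : ℕ, X₀ ≤ X → ∃ (M : ℕ) (S : Finset ℕ),
    X ≤ M ∧ 0 < M ∧ S ⊆ Finset.range M ∧ ModFree k D M S ∧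
      (M : ℝ) * exp (-((c + ε) * (log (X : ℝ)) ^ ((1 : ℝ) / m))) ≤ (S.card : ℝ)

/-- the base of the recursion -/
theorem claim_base (k D : ℕ) : Claim k D 1 1 := by
  intro ε hε
  refine ⟨1, fun X hX => ⟨X, {0}, le_rfl, by omega, ?_, modFree_singleton k D X, ?_⟩⟩
  · intro x hx
    rw [Finset.mem_singleton] at hx
    subst hx
    exact Finset.mem_range.mpr (by omega)
  · have hXpos : (0 : ℝ) < (X : ℝ) := by
      have : 0 < X := by omega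
      exact_mod_cast this
    have hL : 0 ≤ log (X : ℝ) := Real.log_natCast_nonneg X
    simp only [Nat.cast_one, div_self (one_ne_zero' ℝ), Real.rpow_one, Finset.card_singleton]
    calc (X : ℝ) * exp (-((1 + ε) * log (X : ℝ)))
        = exp (log (X : ℝ) + -((1 + ε) * log (X : ℝ))) := by
          rw [Real.exp_add, Real.exp_log hXpos]
      _ ≤ exp 0 := by
          apply Real.exp_le_exp.mpr
          nlinarith
      _ = 1 := Real.exp_zero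

/-- the combinatorial step with the density count -/
theorem level_step {k D M₁ cap : ℕ} {T S₁ : Finset ℕ} (hk : 2 * D < k)
    (hT : ∀ p ∈ T, p.Prime ∧ p ≤ cap) (hM₁ : T.card * cap ^ 2 < M₁) (hS₁ : S₁ ⊆ Finset.range M₁)
    (h₁ : ModFree k (2 * D) M₁ S₁) :
    ∃ S : Finset ℕ, S ⊆ Finset.range (∏ p ∈ T, p) ∧ ModFree k D (∏ p ∈ T, p) S ∧
      ((∏ p ∈ T, p : ℕ) : ℝ) * ((1 / 2 ^ D : ℝ) ^ T.card) * (S₁.card : ℝ) ≤
        (M₁ : ℝ) * (S.card : ℝ) := by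
  have hM₁pos : 0 < M₁ := by omega
  obtain ⟨t, ht⟩ := exists_translate (digA D) (fun _ r => r) T hM₁pos hS₁
  refine ⟨Sset (digA D) (fun _ r => r) T M₁ S₁ t, ?_, step_modfree hk hT hM₁ h₁, ?_⟩
  · intro x hx
    exact (Finset.mem_filter.mp (Finset.mem_filter.mp hx).1).1
  · have h1 := goodG_digA_card (D := D) (T := T) (fun p hp => (hT p hp).1)
    have h2 : ((goodG (digA D) T).card : ℝ) * (S₁.card : ℝ) ≤
        (M₁ : ℝ) * ((Sset (digA D) (fun _ r => r) T M₁ S₁ t).card : ℝ) := by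
      exact_mod_cast ht
    exact (mul_le_mul_of_nonneg_right h1 (by positivity)).trans h2

/-- choosing primes from the pool -/
lemma primes_level {Q d : ℕ} (hd : d ≤ (pool Q).card) :
    ∃ T : Finset ℕ, T.card = d ∧ (∀ p ∈ T, p.Prime ∧ p ≤ 3 * Q) ∧ Q ^ d ≤ ∏ p ∈ T, p := by
  obtain ⟨T, hT, hTc⟩ := Finset.exists_subset_card_eq hd
  have hm : ∀ p ∈ T, Q < p ∧ p ≤ 3 * Q ∧ p.Prime := fun p hp => mem_pool.mp (hT hp)
  refine ⟨T, hTc, fun p hp => ⟨(hm p hp).2.2, (hm p hp).2.1⟩, ?_⟩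
  rw [← hTc]
  exact Finset.pow_card_le_prod _ _ _ (fun p hp => (hm p hp).1.le)

/-- the exponential form of the power of a half -/
lemma half_pow_eq (D d : ℕ) :
    (1 / 2 ^ D : ℝ) ^ d = exp (-((D : ℝ) * log 2 * (d : ℝ))) := by
  have h2 : (0 : ℝ) < (1 / 2 ^ D : ℝ) ^ d := by positivity
  rw [← Real.exp_log h2, Real.log_pow, one_div, Real.log_inv, Real.log_pow]
  congr 1
  ring

/-- density combination -/
lemma density_comb {M M₁ F F₁ E₁ D' w' : ℝ} (hM : 0 ≤ M) (hM₁ : 0 < M₁)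
    (h1 : M * exp (-D') * F₁ ≤ M₁ * F) (h2 : M₁ * exp (-E₁) ≤ F₁) (h3 : D' + E₁ ≤ w') :
    M * exp (-w') ≤ F := by
  have h4 : M * exp (-D') * (M₁ * exp (-E₁)) ≤ M₁ * F :=
    (mul_le_mul_of_nonneg_left h2 (by positivity)).trans h1
  have h5 : M * exp (-(D' + E₁)) * M₁ ≤ F * M₁ := by
    rw [neg_add, Real.exp_add]
    nlinarith
  have h6 : M * exp (-(D' + E₁)) ≤ F := le_of_mul_le_mul_right h5 hM₁
  have h7 : exp (-w') ≤ exp (-(D' + E₁)) := Real.exp_le_exp.mpr (by linarith)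
  exact (mul_le_mul_of_nonneg_left h7 hM).trans h6

/-- the facts on the parameters -/
lemma param_facts {τ w : ℝ} {m : ℕ} {A : ℝ} (hτ : 0 < τ) (hw1 : 1 ≤ w) (hA : A = 37 * (1 / τ + 1))
    (Q d : ℕ) (hQ : Q = ⌈exp (τ * w ^ m)⌉₊) (hd : d = ⌈w / τ⌉₊) :
    1 ≤ d ∧ (d : ℝ) ≤ w / τ + 1 ∧ w / τ ≤ d ∧ exp (τ * w ^ m) ≤ Q ∧
    ((d : ℝ) * (3 * (Q : ℝ)) ^ 2 + 1) ≤ A * (w + 1) * exp (2 * τ * w ^ m) := by
  have hwτ : 0 < w / τ := by positivity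
  have hd1 : 1 ≤ d := by
    rw [hd]
    exact Nat.one_le_ceil_iff.mpr hwτ
  have hdle : (d : ℝ) ≤ w / τ + 1 := by
    rw [hd]
    exact (Nat.ceil_lt_add_one hwτ.le).le
  have hdge : w / τ ≤ d := by
    rw [hd]
    exact Nat.le_ceil _
  have hwm : 0 ≤ w ^ m := by positivity
  set t : ℝ := τ * w ^ m with ht
  have ht0 : 0 ≤ t := by positivity
  have hexp1 : 1 ≤ exp t := Real.one_le_exp ht0
  have hQge : exp t ≤ Q := by
    rw [hQ]
    exact Nat.le_ceil _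
  have hQle : (Q : ℝ) ≤ 2 * exp t := by
    have : (Q : ℝ) < exp t + 1 := by
      rw [hQ]
      exact Nat.ceil_lt_add_one (Real.exp_pos _).le
    linarith
  refine ⟨hd1, hdle, hdge, hQge, ?_⟩
  have hQ0 : (0 : ℝ) ≤ (Q : ℝ) := by positivity
  have hexp2 : exp (2 * τ * w ^ m) = exp t ^ 2 := by
    rw [← Real.exp_nat_mul]
    congr 1
    rw [ht]
    push_cast
    ring
  rw [hexp2]
  have hQsq : (3 * (Q : ℝ)) ^ 2 ≤ 36 * exp t ^ 2 := by
    have : 3 * (Q : ℝ) ≤ 6 * exp t := by linarith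
    have h2 := pow_le_pow_left₀ (by positivity) this 2
    calc (3 * (Q : ℝ)) ^ 2 ≤ (6 * exp t) ^ 2 := h2
      _ = 36 * exp t ^ 2 := by ring
  have hdr : (1 : ℝ) ≤ (d : ℝ) := by exact_mod_cast hd1
  have he2 : 1 ≤ exp t ^ 2 := one_le_pow₀ hexp1
  have hdw : (d : ℝ) ≤ (1 / τ + 1) * (w + 1) := by
    have h5 : w / τ = (1 / τ) * w := by ring
    have h6 : 0 ≤ 1 / τ := by positivity
    rw [h5] at hdle
    nlinarith
  calc (d : ℝ) * (3 * (Q : ℝ)) ^ 2 + 1 ≤ (d : ℝ) * (36 * exp t ^ 2) + (d : ℝ) * exp t ^ 2 := by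
        have h7 : (d : ℝ) * (3 * (Q : ℝ)) ^ 2 ≤ (d : ℝ) * (36 * exp t ^ 2) :=
          mul_le_mul_of_nonneg_left hQsq (by positivity)
        have h8 : 1 ≤ (d : ℝ) * exp t ^ 2 := by nlinarith
        linarith
    _ = 37 * (d : ℝ) * exp t ^ 2 := by ring
    _ ≤ 37 * ((1 / τ + 1) * (w + 1)) * exp t ^ 2 := by
        apply mul_le_mul_of_nonneg_right _ (by positivity)
        linarith
    _ = A * (w + 1) * exp t ^ 2 := by rw [hA]; ring

/-- the number of primes needed is available -/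
lemma pool_enough {τ w K : ℝ} {m d Q : ℕ} (hm : 1 ≤ m) (hτ : 0 < τ) (hw1 : 1 ≤ w) (hwτ : 1 / τ ≤ w)
    (hK : K = 1 / τ ^ 2 + 1) (hdle : (d : ℝ) ≤ w / τ + 1) (hQge : exp (τ * w ^ m) ≤ Q)
    (hpool : K * log ((Q : ℝ) + 1) ≤ ((pool Q).card : ℝ)) : d ≤ (pool Q).card := by
  have hwm : w ≤ w ^ m := by
    calc w = w ^ 1 := (pow_one w).symm
      _ ≤ w ^ m := pow_le_pow_right₀ hw1 hm
  set t : ℝ := τ * w ^ m with ht
  have hτw : τ * w ≤ t := mul_le_mul_of_nonneg_left hwm hτ.le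
  have hτw1 : 1 ≤ τ * w := by
    rw [div_le_iff₀ hτ] at hwτ
    linarith
  have hlog : t ≤ log ((Q : ℝ) + 1) := by
    rw [Real.le_log_iff_exp_le (by positivity)]
    linarith
  have hKnn : 0 ≤ K := by rw [hK]; positivity
  have h1 : K * t ≤ ((pool Q).card : ℝ) := (mul_le_mul_of_nonneg_left hlog hKnn).trans hpool
  have h2 : w / τ + 1 ≤ K * t := by
    rw [hK]
    have h3 : τ * w / τ ^ 2 = w / τ := by field_simp
    have h4 : t / τ ^ 2 ≥ τ * w / τ ^ 2 := by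
      apply div_le_div_of_nonneg_right hτw (by positivity)
    have h5 : (1 / τ ^ 2 + 1) * t = t / τ ^ 2 + t := by ring
    rw [h5]
    linarith
  have h3 : (d : ℝ) ≤ ((pool Q).card : ℝ) := by linarith
  exact_mod_cast h3

/-- the modulus is large enough -/
lemma modulus_large {τ w : ℝ} {m d Q X : ℕ} (hτ : 0 < τ) (hw0 : 0 < w)
    (hX : 1 ≤ X) (hy : log (X : ℝ) = w ^ (m + 1)) (hdge : w / τ ≤ d)
    (hQge : exp (τ * w ^ m) ≤ Q) : X ≤ Q ^ d := by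
  have hXpos : (0 : ℝ) < (X : ℝ) := by
    have : 0 < X := by omega
    exact_mod_cast this
  have h1 : (X : ℝ) = exp (w ^ (m + 1)) := by
    rw [← hy, Real.exp_log hXpos]
  have h2 : exp (w ^ (m + 1)) ≤ exp (τ * w ^ m) ^ d := by
    rw [← Real.exp_nat_mul]
    apply Real.exp_le_exp.mpr
    have h3 : w ≤ (d : ℝ) * τ := by
      rwa [div_le_iff₀ hτ] at hdge
    have h4 : 0 ≤ w ^ m := by positivity
    calc w ^ (m + 1) = w * w ^ m := by ring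
      _ ≤ ((d : ℝ) * τ) * w ^ m := mul_le_mul_of_nonneg_right h3 h4
      _ = (d : ℝ) * (τ * w ^ m) := by ring
  have h3 : exp (τ * w ^ m) ^ d ≤ (Q : ℝ) ^ d :=
    pow_le_pow_left₀ (Real.exp_pos _).le hQge d
  have h4 : (X : ℝ) ≤ (Q : ℝ) ^ d := by
    rw [h1]
    exact h2.trans h3
  exact_mod_cast h4

/-- the step at a fixed scale -/
theorem claim_step_at {k D m : ℕ} {τ w β c' c ε₁ A K: ℝ} {X X₀ : ℕ} (hm : 1 ≤ m) (hk : 2 * D < k)
    (hτ : 0 < τ) (hβ : β = (D : ℝ) * log 2) (hA : A = 37 * (1 / τ + 1)) (hK : K = 1 / τ ^ 2 + 1)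
    (hw1 : 1 ≤ w) (hwτ : 1 / τ ≤ w) (hwX₀ : (X₀ : ℝ) / τ ≤ w)
    (hX : 1 ≤ X) (hy : log (X : ℝ) = w ^ (m + 1))
    (hpool : K * log (((⌈exp (τ * w ^ m)⌉₊ : ℕ) : ℝ) + 1) ≤ ((pool ⌈exp (τ * w ^ m)⌉₊).card : ℝ))
    (hreal : ∀ d Z : ℝ, 1 ≤ Z → d ≤ w / τ + 1 → Z ≤ A * (w + 1) * exp (2 * τ * w ^ m) →
      β * d + (c + ε₁) * (log Z) ^ ((1 : ℝ) / m) + 0 ≤ c' * w)
    (hIH : ∀ X : ℕ, X₀ ≤ X → ∃ (M : ℕ) (S : Finset ℕ),
      X ≤ M ∧ 0 < M ∧ S ⊆ Finset.range M ∧ ModFree k (2 * D) M S ∧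
      (M : ℝ) * exp (-((c + ε₁) * (log (X : ℝ)) ^ ((1 : ℝ) / m))) ≤ (S.card : ℝ)) :
    ∃ (M : ℕ) (S : Finset ℕ), X ≤ M ∧ 0 < M ∧ S ⊆ Finset.range M ∧ ModFree k D M S ∧
      (M : ℝ) * exp (-(c' * w)) ≤ (S.card : ℝ) := by
  set Q : ℕ := ⌈exp (τ * w ^ m)⌉₊ with hQ
  set d : ℕ := ⌈w / τ⌉₊ with hd
  obtain ⟨hd1, hdle, hdge, hQge, hZle⟩ := param_facts hτ hw1 hA Q d hQ hd
  have hw0 : 0 < w := by linarith
  have hdp : d ≤ (pool Q).card := pool_enough hm hτ hw1 hwτ hK hdle hQge hpool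
  obtain ⟨T, hTc, hTp, hTprod⟩ := primes_level hdp
  have hXM : X ≤ ∏ p ∈ T, p := (modulus_large hτ hw0 hX hy hdge hQge).trans hTprod
  set Z : ℕ := d * (3 * Q) ^ 2 + 1 with hZ
  have hZr : (Z : ℝ) = (d : ℝ) * (3 * (Q : ℝ)) ^ 2 + 1 := by
    rw [hZ]
    push_cast
    ring
  -- the lower level
  have hZX₀ : X₀ ≤ Z := by
    have h1 : (X₀ : ℝ) ≤ (Q : ℝ) := by
      have hwm : w ≤ w ^ m := by
        calc w = w ^ 1 := (pow_one w).symm
          _ ≤ w ^ m := pow_le_pow_right₀ hw1 hm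
      have h2 : (X₀ : ℝ) ≤ w * τ := by
        rwa [div_le_iff₀ hτ] at hwX₀
      have h3 : τ * w ^ m ≤ exp (τ * w ^ m) := by
        have := Real.add_one_le_exp (τ * w ^ m)
        linarith
      have h4 : w * τ ≤ τ * w ^ m := by nlinarith
      linarith
    have h2 : X₀ ≤ Q := by exact_mod_cast h1
    have h3 : Q ≤ d * (3 * Q) ^ 2 := by
      have h4 : Q ≤ (3 * Q) ^ 2 := by nlinarith
      exact h4.trans (Nat.le_mul_of_pos_left _ (by omega))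
    omega
  obtain ⟨M₁, S₁, hZM, hM₁pos, hS₁, hfree, hdens⟩ := hIH Z hZX₀
  have hM₁ : T.card * (3 * Q) ^ 2 < M₁ := by
    rw [hTc]
    omega
  obtain ⟨S, hS, hSfree, hScount⟩ := level_step hk hTp hM₁ hS₁ hfree
  refine ⟨∏ p ∈ T, p, S, hXM, by omega, hS, hSfree, ?_⟩
  have hM₁r : (0 : ℝ) < (M₁ : ℝ) := by exact_mod_cast hM₁pos
  have hZ1 : (1 : ℝ) ≤ (Z : ℝ) := by
    rw [hZr]
    have : 0 ≤ (d : ℝ) * (3 * (Q : ℝ)) ^ 2 := by positivity
    linarith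
  have hkey := hreal (d : ℝ) (Z : ℝ) hZ1 hdle (by rw [hZr]; exact hZle)
  rw [hTc, half_pow_eq] at hScount
  rw [add_zero] at hkey
  refine density_comb (by positivity) hM₁r hScount hdens ?_
  rw [← hβ]
  exact hkey

/-- the root of the logarithm as a scale -/
lemma scale_facts {m : ℕ} (X : ℕ) :
    0 ≤ (log (X : ℝ)) ^ ((1 : ℝ) / ((m + 1 : ℕ) : ℝ)) ∧
    ((log (X : ℝ)) ^ ((1 : ℝ) / ((m + 1 : ℕ) : ℝ))) ^ (m + 1) = log (X : ℝ) := by
  have hL : 0 ≤ log (X : ℝ) := Real.log_natCast_nonneg X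
  refine ⟨Real.rpow_nonneg hL _, ?_⟩
  rw [one_div, Real.rpow_inv_natCast_pow hL (by omega)]

/-- the scale tends to infinity -/
lemma scale_large {m : ℕ} {w₂ : ℝ} (hw₂ : 0 ≤ w₂) {X : ℕ}
    (hX : exp (w₂ ^ (m + 1)) ≤ (X : ℝ)) :
    w₂ ≤ (log (X : ℝ)) ^ ((1 : ℝ) / ((m + 1 : ℕ) : ℝ)) := by
  have hXpos : (0 : ℝ) < (X : ℝ) := lt_of_lt_of_le (Real.exp_pos _) hX
  have h1 : w₂ ^ (m + 1) ≤ log (X : ℝ) := by
    rwa [Real.le_log_iff_exp_le hXpos]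
  have h2 : 0 ≤ w₂ ^ (m + 1) := by positivity
  have h3 := Real.rpow_le_rpow h2 h1 (z := (1 : ℝ) / ((m + 1 : ℕ) : ℝ)) (by positivity)
  rw [one_div, Real.pow_rpow_inv_natCast hw₂ (by omega)] at h3
  rw [one_div]
  exact h3

/-- the recursive step for the asymptotic statement -/
theorem claim_step {k D m : ℕ} {c τ : ℝ} (hm : 1 ≤ m) (hk : 2 * D < k) (hc : 0 ≤ c) (hτ : 0 < τ)
    (h : Claim k (2 * D) c m) :
    Claim k D ((D : ℝ) * log 2 / τ + c * (2 * τ) ^ ((1 : ℝ) / m)) (m + 1) := by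
  intro ε hε
  set β : ℝ := (D : ℝ) * log 2 with hβ
  have hβnn : 0 ≤ β := mul_nonneg (by positivity) (Real.log_nonneg (by norm_num))
  set A : ℝ := 37 * (1 / τ + 1) with hA
  have hA1 : 1 ≤ A := by
    have : 0 ≤ 1 / τ := by positivity
    rw [hA]
    linarith
  set K : ℝ := 1 / τ ^ 2 + 1 with hK
  have hKnn : 0 ≤ K := by rw [hK]; positivity
  obtain ⟨ε₁, hε₁, w₀, hw₀⟩ := real_key (C₀ := 0) (A := A) hm hβnn hc hτ hε hA1
  obtain ⟨X₀, hX₀⟩ := h ε₁ hε₁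
  obtain ⟨Q₁, hQ₁⟩ := Filter.eventually_atTop.mp (pool_large K hKnn)
  set w₂ : ℝ := max (max w₀ 1) (max (1 / τ) (((X₀ : ℝ) + (Q₁ : ℝ)) / τ)) with hw₂
  have hw₂1 : 1 ≤ w₂ := le_trans (le_max_right _ _) (le_max_left _ _)
  have hw₂0 : 0 ≤ w₂ := by linarith
  refine ⟨⌈exp (w₂ ^ (m + 1))⌉₊ + 1, fun X hXge => ?_⟩
  have hX1 : 1 ≤ X := by omega
  have hXr : exp (w₂ ^ (m + 1)) ≤ (X : ℝ) := by
    have h1 : ⌈exp (w₂ ^ (m + 1))⌉₊ ≤ X := by omega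
    exact (Nat.le_ceil _).trans (by exact_mod_cast h1)
  obtain ⟨hw0, hwp⟩ := scale_facts (m := m) X
  have hwge := scale_large hw₂0 hXr
  set w : ℝ := (log (X : ℝ)) ^ ((1 : ℝ) / ((m + 1 : ℕ) : ℝ)) with hw
  have hw1 : 1 ≤ w := hw₂1.trans hwge
  have hwτ : 1 / τ ≤ w :=
    (le_trans (le_max_left _ _) (le_max_right _ _)).trans hwge
  have hwsum : ((X₀ : ℝ) + (Q₁ : ℝ)) / τ ≤ w :=
    (le_trans (le_max_right _ _) (le_max_right _ _)).trans hwge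
  have hX₀nn : (0 : ℝ) ≤ (X₀ : ℝ) := by positivity
  have hQ₁nn : (0 : ℝ) ≤ (Q₁ : ℝ) := by positivity
  have hwX₀ : (X₀ : ℝ) / τ ≤ w := by
    refine le_trans ?_ hwsum
    apply div_le_div_of_nonneg_right _ hτ.le
    linarith
  have hwQ₁ : (Q₁ : ℝ) ≤ w * τ := by
    rw [div_le_iff₀ hτ] at hwsum
    linarith
  have hQge : Q₁ ≤ ⌈exp (τ * w ^ m)⌉₊ := by
    have hwm : w ≤ w ^ m := by
      calc w = w ^ 1 := (pow_one w).symm
        _ ≤ w ^ m := pow_le_pow_right₀ hw1 hm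
    have h3 : τ * w ^ m ≤ exp (τ * w ^ m) := by
      have := Real.add_one_le_exp (τ * w ^ m)
      linarith
    have h4 : w * τ ≤ τ * w ^ m := by nlinarith
    have h5 : (Q₁ : ℝ) ≤ ((⌈exp (τ * w ^ m)⌉₊ : ℕ) : ℝ) :=
      (hwQ₁.trans (h4.trans h3)).trans (Nat.le_ceil _)
    exact_mod_cast h5
  have hreal := hw₀ w ((le_trans (le_max_left _ _) (le_max_left _ _)).trans hwge) hw0
  have hstep := claim_step_at (c' := β / τ + c * (2 * τ) ^ ((1 : ℝ) / m) + ε) (c := c) (ε₁ := ε₁)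
    (β := β) (A := A) (K := K) (X₀ := X₀) hm hk hτ hβ hA hK hw1 hwτ hwX₀ hX1 hwp.symm
    (hQ₁ _ hQge) hreal hX₀
  obtain ⟨M, S, hXM, hMpos, hS, hfree, hdens⟩ := hstep
  exact ⟨M, S, hXM, hMpos, hS, hfree, hdens⟩

end Vale.Agent.Lib.P057R
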