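import Mathlib

/-!
Digit systems for four-term progressions: the set `[0,m/3) ∪ [5m/9,7m/9)` in `ℤ/m`.
-/

namespace Vale.Agent.Lib.P057R

/-- membership in the digit set -/
def inP (m r : ℕ) : Prop := 3 * r < m ∨ (5 * m ≤ 9 * r ∧ 9 * r < 7 * m)

instance (m r : ℕ) : Decidable (inP m r) := by unfold inP; infer_instance

/-- the label of a digit: `0` on the first arc and `1` on the second -/
def lab (m r : ℕ) : ℕ := if 3 * r < m then 0 else 1

/-- the lift of the doubled digit -/
def yy (m r : ℕ) : ℕ := if 3 * r < m then 2 * r else 2 * r - m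

/-- one step modulo `m` -/
lemma step_cases {m x δ : ℕ} (hx : x < m) (hδ : δ < m) :
    (x + δ) % m = x + δ ∨ (x + δ) % m + m = x + δ := by
  by_cases h : x + δ < m
  · left; exact Nat.mod_eq_of_lt h
  · right
    have h1 : m ≤ x + δ := not_lt.mp h
    have h2 : x + δ - m < m := by omega
    have h3 : (x + δ) % m = x + δ - m := by
      rw [Nat.mod_eq_sub_mod h1, Nat.mod_eq_of_lt h2]
    omega

/-- the arithmetic core: the pattern analysis. -/
lemma core_le {m n r0 r1 r2 r3 δ : ℕ} (hm : m = 2 * n + 1)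
    (h0 : inP m r0) (h1 : inP m r1) (h2 : inP m r2) (h3 : inP m r3)
    (hr0 : r0 < m) (hr1 : r1 < m) (hr2 : r2 < m) (hr3 : r3 < m) (hδ : δ < m)
    (s1 : r1 = r0 + δ ∨ r1 + m = r0 + δ)
    (s2 : r2 = r1 + δ ∨ r2 + m = r1 + δ)
    (s3 : r3 = r2 + δ ∨ r3 + m = r2 + δ) :
    lab m r1 + lab m r2 ≤ lab m r0 + lab m r3 ∧
    (lab m r1 + lab m r2 = lab m r0 + lab m r3 →
      yy m r0 + yy m r2 = 2 * yy m r1 ∧ (0 < δ → yy m r0 ≠ yy m r1)) := by
  unfold inP at h0 h1 h2 h3
  unfold lab yy
  subst hm
  rcases s1 with s1 | s1 <;> rcases s2 with s2 | s2 <;> rcases s3 with s3 | s3 <;>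
    rcases h0 with h0 | h0 <;> rcases h1 with h1 | h1 <;>
    rcases h2 with h2 | h2 <;> rcases h3 with h3 | h3 <;>
    split_ifs <;> omega


/-- the digit pattern for a four-term progression modulo an odd number. -/
lemma digit_pattern {p a d : ℕ} (hp : Odd p)
    (h0 : inP p (a % p)) (h1 : inP p ((a + d) % p)) (h2 : inP p ((a + 2 * d) % p))
    (h3 : inP p ((a + 3 * d) % p)) :
    lab p ((a + d) % p) + lab p ((a + 2 * d) % p) ≤ lab p (a % p) + lab p ((a + 3 * d) % p) ∧
    (lab p ((a + d) % p) + lab p ((a + 2 * d) % p) = lab p (a % p) + lab p ((a + 3 * d) % p) →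
      yy p (a % p) + yy p ((a + 2 * d) % p) = 2 * yy p ((a + d) % p) ∧
      (¬ p ∣ d → yy p (a % p) ≠ yy p ((a + d) % p))) := by
  obtain ⟨n, hn⟩ := hp
  have hpos : 0 < p := by omega
  have hδ : d % p < p := Nat.mod_lt _ hpos
  have st : ∀ x : ℕ, (x + d) % p = x % p + d % p ∨ (x + d) % p + p = x % p + d % p := by
    intro x
    have := step_cases (Nat.mod_lt x hpos) hδ
    rwa [← Nat.add_mod] at this
  have s1 := st a
  have s2 := st (a + d)
  have s3 := st (a + 2 * d)
  rw [show a + d + d = a + 2 * d by ring] at s2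
  rw [show a + 2 * d + d = a + 3 * d by ring] at s3
  have hc := core_le hn h0 h1 h2 h3 (Nat.mod_lt _ hpos) (Nat.mod_lt _ hpos) (Nat.mod_lt _ hpos)
    (Nat.mod_lt _ hpos) hδ s1 s2 s3
  refine ⟨hc.1, fun he => ⟨(hc.2 he).1, fun hd => (hc.2 he).2 ?_⟩⟩
  exact Nat.pos_of_ne_zero (fun h0' => hd (Nat.dvd_of_mod_eq_zero h0'))

/-- all digits in the digit sets -/
def good (S : Finset ℕ) (x : ℕ) : Prop := ∀ p ∈ S, inP p (x % p)

instance (S : Finset ℕ) (x : ℕ) : Decidable (good S x) := by unfold good; infer_instance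

/-- number of digits on the second arc -/
def cnt (S : Finset ℕ) (x : ℕ) : ℕ := ∑ p ∈ S, lab p (x % p)

/-- the squared norm of the lifted digit vector -/
def nrm (S : Finset ℕ) (x : ℕ) : ℕ := ∑ p ∈ S, (yy p (x % p)) ^ 2

/-- no four-term progression with fixed invariants. -/
theorem no_four_ap {S : Finset ℕ} (hS : ∀ p ∈ S, p.Prime ∧ p ≠ 2) {a d : ℕ} (hd : 0 < d)
    (hlt : d < ∏ p ∈ S, p)
    (g0 : good S a) (g1 : good S (a + d)) (g2 : good S (a + 2 * d)) (g3 : good S (a + 3 * d))
    (c1 : cnt S (a + d) = cnt S a) (c2 : cnt S (a + 2 * d) = cnt S a)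
    (c3 : cnt S (a + 3 * d) = cnt S a)
    (n1 : nrm S (a + d) = nrm S a) (n2 : nrm S (a + 2 * d) = nrm S a) : False := by
  have hodd : ∀ p ∈ S, Odd p := fun p hp => (hS p hp).1.odd_of_ne_two (hS p hp).2
  have key := fun p (hp : p ∈ S) =>
    digit_pattern (hodd p hp) (g0 p hp) (g1 p hp) (g2 p hp) (g3 p hp)
  have hsum : ∑ p ∈ S, (lab p ((a + d) % p) + lab p ((a + 2 * d) % p)) =
      ∑ p ∈ S, (lab p (a % p) + lab p ((a + 3 * d) % p)) := by
    rw [Finset.sum_add_distrib, Finset.sum_add_distrib]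
    unfold cnt at c1 c2 c3
    rw [c1, c2, c3]
  have heq := (Finset.sum_eq_sum_iff_of_le (fun p hp => (key p hp).1)).mp hsum
  have hy := fun p (hp : p ∈ S) => (key p hp).2 (heq p hp)
  obtain ⟨p₀, hp₀, hnd⟩ : ∃ p ∈ S, ¬ p ∣ d := by
    by_contra hcon
    push Not at hcon
    have hdvd : ∏ p ∈ S, p ∣ d :=
      Finset.prod_primes_dvd d (fun p hp => (hS p hp).1.prime) hcon
    exact absurd (Nat.le_of_dvd hd hdvd) (not_le.mpr hlt)
  have hlt2 : ∑ p ∈ S, 2 * (yy p ((a + d) % p)) ^ 2 <
      ∑ p ∈ S, ((yy p (a % p)) ^ 2 + (yy p ((a + 2 * d) % p)) ^ 2) := by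
    apply Finset.sum_lt_sum
    · intro p hp
      have h := (hy p hp).1
      generalize yy p (a % p) = u at *
      generalize yy p ((a + 2 * d) % p) = v at *
      generalize yy p ((a + d) % p) = w at *
      have hw : (2 * w : ℤ) = u + v := by exact_mod_cast h.symm
      have : (2 * (w : ℤ) ^ 2) ≤ (u : ℤ) ^ 2 + (v : ℤ) ^ 2 := by
        nlinarith [sq_nonneg ((u : ℤ) - v)]
      exact_mod_cast this
    · refine ⟨p₀, hp₀, ?_⟩
      have h := (hy p₀ hp₀).1
      have h' := (hy p₀ hp₀).2 hnd
      generalize yy p₀ (a % p₀) = u at *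
      generalize yy p₀ ((a + 2 * d) % p₀) = v at *
      generalize yy p₀ ((a + d) % p₀) = w at *
      have hw : (2 * w : ℤ) = u + v := by exact_mod_cast h.symm
      have hne : (u : ℤ) ≠ v := by
        intro huv
        apply h'
        have : (u : ℤ) = w := by linarith
        exact_mod_cast this
      have hpos : 0 < ((u : ℤ) - v) ^ 2 := by
        have : (u : ℤ) - v ≠ 0 := sub_ne_zero.mpr hne
        positivity
      have : (2 * (w : ℤ) ^ 2) < (u : ℤ) ^ 2 + (v : ℤ) ^ 2 := by
        nlinarith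
      exact_mod_cast this
  rw [Finset.sum_add_distrib, ← Finset.mul_sum] at hlt2
  unfold nrm at n1 n2
  rw [n1, n2] at hlt2
  omega

/-- the number of digits of the digit set -/
def pCard (p : ℕ) : ℕ := ((Finset.range p).filter (inP p)).card

/-- the integers below the product whose digits are all in the digit sets -/
def goodSet (S : Finset ℕ) : Finset ℕ := (Finset.range (∏ p ∈ S, p)).filter (good S)

/-- Chinese remaindering counts the good integers exactly. -/
theorem card_goodSet {S : Finset ℕ} (hS : ∀ p ∈ S, p.Prime) :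
    (goodSet S).card = ∏ p ∈ S, pCard p := by
  classical
  induction S using Finset.induction_on with
  | empty =>
    have h0 : goodSet (∅ : Finset ℕ) = {0} := by
      ext x
      simp [goodSet, good]
    simp [h0]
  | insert q S hq ih =>
    have hS' : ∀ p ∈ S, p.Prime := fun p hp => hS p (Finset.mem_insert_of_mem hp)
    have hqp : q.Prime := hS q (Finset.mem_insert_self q S)
    have hco : Nat.Coprime q (∏ p ∈ S, p) := by
      apply Nat.Coprime.prod_right
      intro p hp
      rw [Nat.coprime_primes hqp (hS' p hp)]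
      rintro rfl
      exact hq hp
    rw [Finset.prod_insert hq, ← ih hS']
    set M := ∏ p ∈ S, p with hM
    have hMpos : 0 < M := Finset.prod_pos (fun p hp => (hS' p hp).pos)
    have hprod : ∏ p ∈ insert q S, p = q * M := Finset.prod_insert hq
    have hcard : (goodSet (insert q S)).card =
        (((Finset.range q).filter (inP q)) ×ˢ (goodSet S)).card := by
      apply Finset.card_bij (fun x _ => (x % q, x % M))
      · intro x hx
        simp only [goodSet, Finset.mem_filter, Finset.mem_range, hprod, good] at hx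
        simp only [Finset.mem_product, Finset.mem_filter, Finset.mem_range, goodSet, good,
          ← hM]
        refine ⟨⟨Nat.mod_lt _ hqp.pos, hx.2 q (Finset.mem_insert_self q S)⟩,
          Nat.mod_lt _ hMpos, ?_⟩
        intro p hp
        have hdvd : p ∣ M := Finset.dvd_prod_of_mem _ hp
        rw [Nat.mod_mod_of_dvd x hdvd]
        exact hx.2 p (Finset.mem_insert_of_mem hp)
      · intro x hx y hy hxy
        simp only [goodSet, Finset.mem_filter, Finset.mem_range, hprod] at hx hy
        simp only [Prod.mk.injEq] at hxy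
        have h1 : x ≡ y [MOD q] := hxy.1
        have h2 : x ≡ y [MOD M] := hxy.2
        have h3 : x ≡ y [MOD q * M] := (Nat.modEq_and_modEq_iff_modEq_mul hco).mp ⟨h1, h2⟩
        exact Nat.ModEq.eq_of_lt_of_lt h3 hx.1 hy.1
      · rintro ⟨u, v⟩ huv
        simp only [Finset.mem_product, Finset.mem_filter, Finset.mem_range, goodSet, good,
          ← hM] at huv
        obtain ⟨⟨hu, hu'⟩, hv, hv'⟩ := huv
        obtain ⟨k, hk, hk1, hk2⟩ : ∃ k, k < q * M ∧ k % q = u ∧ k % M = v := by
          refine ⟨Nat.chineseRemainder hco u v,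
            Nat.chineseRemainder_lt_mul hco u v hqp.ne_zero hMpos.ne', ?_, ?_⟩
          · have h := (Nat.chineseRemainder hco u v).2.1
            exact Eq.trans h (Nat.mod_eq_of_lt hu)
          · have h := (Nat.chineseRemainder hco u v).2.2
            exact Eq.trans h (Nat.mod_eq_of_lt hv)
        refine ⟨k, ?_, by simp [hk1, hk2]⟩
        simp only [goodSet, Finset.mem_filter, Finset.mem_range, hprod, good]
        refine ⟨hk, ?_⟩
        intro p hp
        rcases Finset.mem_insert.mp hp with rfl | hp'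
        · rwa [hk1]
        · have hdvd : p ∣ M := Finset.dvd_prod_of_mem _ hp'
          rw [← Nat.mod_mod_of_dvd k hdvd, hk2]
          exact hv' p hp'
    rw [hcard, Finset.card_product]
    rfl

/-- the digit of the digit set has `yy < p`. -/
lemma yy_lt {p r : ℕ} (h : inP p r) : yy p r < p := by
  unfold inP at h
  unfold yy
  split_ifs <;> omega

lemma lab_le (p r : ℕ) : lab p r ≤ 1 := by
  unfold lab
  split_ifs <;> omega

/-- density of the digit set -/
lemma pCard_ge (p : ℕ) : 5 * p ≤ 9 * pCard p + 9 := by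
  unfold pCard
  have hsub : (Finset.range ((p + 2) / 3)) ∪ (Finset.Ico ((5 * p + 8) / 9) ((7 * p + 8) / 9))
      ⊆ (Finset.range p).filter (inP p) := by
    intro x hx
    simp only [Finset.mem_union, Finset.mem_range, Finset.mem_Ico] at hx
    simp only [Finset.mem_filter, Finset.mem_range, inP]
    omega
  have hdisj : Disjoint (Finset.range ((p + 2) / 3))
      (Finset.Ico ((5 * p + 8) / 9) ((7 * p + 8) / 9)) := by
    rw [Finset.disjoint_left]
    intro x hx hx'
    simp only [Finset.mem_range, Finset.mem_Ico] at hx hx'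
    omega
  have := Finset.card_le_card hsub
  rw [Finset.card_union_of_disjoint hdisj, Finset.card_range, Nat.card_Ico] at this
  omega

/-- the final set, with fixed invariants -/
def fibre (S : Finset ℕ) (n v : ℕ) : Finset ℕ :=
  (goodSet S).filter (fun x => cnt S x = n ∧ nrm S x = v)

/-- the pigeonhole step. -/
theorem exists_large_fibre {S : Finset ℕ} {C : ℕ} (hC : ∀ p ∈ S, p ≤ C) :
    ∃ n v, (goodSet S).card ≤ (S.card + 1) * (S.card * C ^ 2 + 1) * (fibre S n v).card := by
  classical
  set t := (Finset.range (S.card + 1)) ×ˢ (Finset.range (S.card * C ^ 2 + 1)) with ht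
  have hmaps : ∀ x ∈ goodSet S, (cnt S x, nrm S x) ∈ t := by
    intro x hx
    simp only [goodSet, Finset.mem_filter, Finset.mem_range] at hx
    simp only [ht, Finset.mem_product, Finset.mem_range]
    constructor
    · have : cnt S x ≤ ∑ _p ∈ S, 1 := Finset.sum_le_sum (fun p _ => lab_le p _)
      simp only [Finset.sum_const, smul_eq_mul, mul_one] at this
      omega
    · have : nrm S x ≤ ∑ _p ∈ S, C ^ 2 := by
        apply Finset.sum_le_sum
        intro p hp
        have h1 := yy_lt (hx.2 p hp)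
        have h2 := hC p hp
        exact Nat.pow_le_pow_left (by omega) 2
      simp only [Finset.sum_const, smul_eq_mul] at this
      omega
  have hne : t.Nonempty := ⟨(0, 0), by simp [ht]⟩
  have hcardt : t.card = (S.card + 1) * (S.card * C ^ 2 + 1) := by
    simp [ht, Finset.card_product]
  by_contra hcon
  push Not at hcon
  have hlt : ∀ y ∈ t, ((goodSet S).filter (fun x => (cnt S x, nrm S x) = y)).card * t.card
      < (goodSet S).card := by
    rintro ⟨n, v⟩ -
    have := hcon n v
    have he : (goodSet S).filter (fun x => (cnt S x, nrm S x) = (n, v)) = fibre S n v := by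
      ext x
      simp [fibre, Prod.mk.injEq]
    rw [he, hcardt, mul_comm]
    exact this
  have hsum := Finset.card_eq_sum_card_fiberwise hmaps
  have h1 : ∑ y ∈ t, ((goodSet S).filter (fun x => (cnt S x, nrm S x) = y)).card * t.card
      < ∑ _y ∈ t, (goodSet S).card :=
    Finset.sum_lt_sum_of_nonempty hne hlt
  rw [← Finset.sum_mul, ← hsum, Finset.sum_const, smul_eq_mul, mul_comm] at h1
  exact lt_irrefl _ h1

/-- the fibre has no four-term progression. -/
theorem fibre_no_ap {S : Finset ℕ} (hS : ∀ p ∈ S, p.Prime ∧ p ≠ 2) (n v : ℕ) {a d : ℕ}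
    (hd : 0 < d) (h0 : a ∈ fibre S n v) (h1 : a + d ∈ fibre S n v)
    (h2 : a + 2 * d ∈ fibre S n v) (h3 : a + 3 * d ∈ fibre S n v) : False := by
  simp only [fibre, goodSet, Finset.mem_filter, Finset.mem_range] at h0 h1 h2 h3
  refine no_four_ap hS hd (by omega) h0.1.2 h1.1.2 h2.1.2 h3.1.2 ?_ ?_ ?_ ?_ ?_
  · rw [h1.2.1, h0.2.1]
  · rw [h2.2.1, h0.2.1]
  · rw [h3.2.1, h0.2.1]
  · rw [h1.2.2, h0.2.2]
  · rw [h2.2.2, h0.2.2]

/-- swapping primes: a discrete intermediate value argument. -/
theorem exists_swap {X Y : Finset ℕ} {K N : ℕ} (hcard : X.card = Y.card)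
    (hpos : ∀ x ∈ X, 0 < x) (hlt : ∀ x ∈ X, ∀ y ∈ Y, x < y) (hK : ∀ x ∈ X, ∀ y ∈ Y, y ≤ K * x)
    (hY : ∀ y ∈ Y, 0 < y)
    (h1 : ∏ p ∈ X, p ≤ N) (h2 : N < ∏ p ∈ Y, p) :
    ∃ S ⊆ X ∪ Y, S.card = X.card ∧ ∏ p ∈ S, p ≤ N ∧ N < K * ∏ p ∈ S, p := by
  classical
  set F := ((X ∪ Y).powerset).filter (fun S => S.card = X.card ∧ ∏ p ∈ S, p ≤ N) with hF
  have hFne : F.Nonempty :=
    ⟨X, Finset.mem_filter.mpr ⟨Finset.mem_powerset.mpr Finset.subset_union_left, rfl, h1⟩⟩
  obtain ⟨S, hSF, hmax⟩ := Finset.exists_max_image F (fun S => ∏ p ∈ S, p) hFne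
  simp only [hF, Finset.mem_filter, Finset.mem_powerset] at hSF
  obtain ⟨hSsub, hScard, hSN⟩ := hSF
  refine ⟨S, hSsub, hScard, hSN, ?_⟩
  by_contra hcon
  push Not at hcon
  have hSY : S ≠ Y := by
    rintro rfl
    exact absurd h2 (not_lt.mpr hSN)
  obtain ⟨y, hyY, hyS⟩ : ∃ y ∈ Y, y ∉ S := by
    by_contra hc
    push Not at hc
    exact hSY (Finset.eq_of_subset_of_card_le hc (by omega)).symm
  obtain ⟨x, hxS, hxY⟩ : ∃ x ∈ S, x ∉ Y := by
    by_contra hc
    push Not at hc
    exact hSY (Finset.eq_of_subset_of_card_le hc (by omega))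
  have hxX : x ∈ X := by
    rcases Finset.mem_union.mp (hSsub hxS) with h | h
    · exact h
    · exact absurd h hxY
  have hxpos := hpos x hxX
  set R := ∏ p ∈ S.erase x, p with hR
  have hprodS : x * R = ∏ p ∈ S, p := Finset.mul_prod_erase S (fun p => p) hxS
  have hRpos : 0 < R := by
    apply Finset.prod_pos
    intro p hp
    have hp' := Finset.mem_of_mem_erase hp
    rcases Finset.mem_union.mp (hSsub hp') with h | h
    · exact hpos p h
    · exact hY p h
  set S' := insert y (S.erase x) with hS'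
  have hyE : y ∉ S.erase x := fun h => hyS (Finset.mem_of_mem_erase h)
  have hprodS' : ∏ p ∈ S', p = y * R := Finset.prod_insert hyE
  have hS'card : S'.card = X.card := by
    rw [hS', Finset.card_insert_of_notMem hyE, Finset.card_erase_of_mem hxS, hScard]
    have : 0 < S.card := Finset.card_pos.mpr ⟨x, hxS⟩
    omega
  have hS'sub : S' ⊆ X ∪ Y := by
    intro p hp
    rcases Finset.mem_insert.mp hp with rfl | hp'
    · exact Finset.mem_union_right _ hyY
    · exact hSsub (Finset.mem_of_mem_erase hp')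
  have hle : ∏ p ∈ S', p ≤ N := by
    rw [hprodS']
    calc y * R ≤ (K * x) * R := Nat.mul_le_mul_right _ (hK x hxX y hyY)
      _ = K * (x * R) := by ring
      _ = K * ∏ p ∈ S, p := by rw [hprodS]
      _ ≤ N := hcon
  have hmem : S' ∈ F := by
    simp only [hF, Finset.mem_filter, Finset.mem_powerset]
    exact ⟨hS'sub, hS'card, hle⟩
  have hmx := hmax S' hmem
  rw [hprodS', ← hprodS] at hmx
  have hxy := hlt x hxX y hyY
  have : x * R < y * R := Nat.mul_lt_mul_of_pos_right hxy hRpos
  omega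

end Vale.Agent.Lib.P057R
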