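import Mathlib
import Vale.Agent.Lib.P057R.Digit
import Vale.Agent.Lib.P057R.Primes

/-!
The lower bound for sets without four-term progressions.
-/

namespace Vale.Agent.Lib.P057R

open Real

/-- choosing the primes -/
theorem exists_primes {Q d N : ℕ} (h1 : d ≤ (pool Q).card)
    (h2 : d ≤ (pool (9 * Q)).card) (h3 : (3 * Q) ^ d ≤ N) (h4 : N < (9 * Q) ^ d) :
    ∃ S : Finset ℕ, S.card = d ∧ (∀ p ∈ S, p.Prime ∧ Q < p ∧ p ≤ 27 * Q) ∧
      ∏ p ∈ S, p ≤ N ∧ N < 27 * ∏ p ∈ S, p := by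
  classical
  obtain ⟨X, hX, hXc⟩ := Finset.exists_subset_card_eq h1
  obtain ⟨Y, hY, hYc⟩ := Finset.exists_subset_card_eq h2
  have hXm : ∀ x ∈ X, Q < x ∧ x ≤ 3 * Q ∧ x.Prime := fun x hx => mem_pool.mp (hX hx)
  have hYm : ∀ y ∈ Y, 9 * Q < y ∧ y ≤ 3 * (9 * Q) ∧ y.Prime := fun y hy => mem_pool.mp (hY hy)
  have hprodX : ∏ p ∈ X, p ≤ N := by
    refine le_trans ?_ h3
    rw [← hXc]
    exact Finset.prod_le_pow_card _ _ _ (fun x hx => (hXm x hx).2.1)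
  have hprodY : N < ∏ p ∈ Y, p := by
    refine lt_of_lt_of_le h4 ?_
    rw [← hYc]
    exact Finset.pow_card_le_prod _ _ _ (fun y hy => (hYm y hy).1.le)
  obtain ⟨S, hS, hSc, hS1, hS2⟩ := exists_swap (X := X) (Y := Y) (K := 27) (N := N)
    (by omega) (fun x hx => (hXm x hx).2.2.pos)
    (fun x hx y hy => by have := hXm x hx; have := hYm y hy; omega)
    (fun x hx y hy => by have := hXm x hx; have := hYm y hy; omega)
    (fun y hy => (hYm y hy).2.2.pos) hprodX hprodY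
  refine ⟨S, by omega, ?_, hS1, hS2⟩
  intro p hp
  rcases Finset.mem_union.mp (hS hp) with h | h
  · have := hXm p h
    exact ⟨this.2.2, this.1, by omega⟩
  · have := hYm p h
    exact ⟨this.2.2, by omega, by omega⟩

/-- density of the good integers -/
theorem goodSet_card_ge {S : Finset ℕ} {Q d : ℕ} (hQ : 1 ≤ Q) (hd : 4 * d ≤ Q) (hc : S.card = d)
    (hS : ∀ p ∈ S, p.Prime ∧ Q < p) :
    (5 / 9 : ℝ) ^ d * (1 / 2) * ((∏ p ∈ S, p : ℕ) : ℝ) ≤ ((goodSet S).card : ℝ) := by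
  have hQr : (1 : ℝ) ≤ (Q : ℝ) := by exact_mod_cast hQ
  rw [card_goodSet (fun p hp => (hS p hp).1)]
  push_cast
  set β : ℝ := (5 / 9) * (1 - 2 / (Q : ℝ)) with hβ
  have hQ2 : (2 : ℝ) / (Q : ℝ) ≤ 1 / 2 ∨ d = 0 := by
    by_cases h0 : d = 0
    · exact Or.inr h0
    · left
      have : (4 : ℝ) ≤ (Q : ℝ) := by
        have : 4 ≤ Q := by omega
        exact_mod_cast this
      rw [div_le_iff₀ (by linarith)]
      linarith
  rcases hQ2 with hQ2 | h0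
  · have h1 : ∀ p ∈ S, β * (p : ℝ) ≤ (pCard p : ℝ) := by
      intro p hp
      have h5 := pCard_ge p
      have h5r : (5 : ℝ) * (p : ℝ) ≤ 9 * (pCard p : ℝ) + 9 := by exact_mod_cast h5
      have hpQ : (Q : ℝ) < (p : ℝ) := by exact_mod_cast (hS p hp).2
      have hQpos : (0 : ℝ) < (Q : ℝ) := by linarith
      have h6 : (p : ℝ) * (2 / (Q : ℝ)) ≥ 2 := by
        rw [ge_iff_le, mul_div_assoc', le_div_iff₀ hQpos]
        linarith
      rw [hβ]
      nlinarith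
    have h2 : ∏ p ∈ S, (β * (p : ℝ)) ≤ ∏ p ∈ S, (pCard p : ℝ) := by
      apply Finset.prod_le_prod
      · intro p hp
        have : 0 ≤ 1 - 2 / (Q : ℝ) := by linarith
        have hp0 : (0 : ℝ) ≤ p := by positivity
        rw [hβ]
        positivity
      · exact h1
    rw [Finset.prod_mul_distrib, Finset.prod_const, hc] at h2
    have h3 : (1 / 2 : ℝ) ≤ (1 - 2 / (Q : ℝ)) ^ d := by
      have hb := one_add_mul_le_pow (a := -(2 / (Q : ℝ))) (by linarith) d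
      have hQpos : (0 : ℝ) < (Q : ℝ) := by linarith
      have hdr : (4 : ℝ) * (d : ℝ) ≤ (Q : ℝ) := by exact_mod_cast hd
      have h7 : (d : ℝ) * (2 / (Q : ℝ)) ≤ 1 / 2 := by
        rw [mul_div_assoc', div_le_iff₀ hQpos]
        linarith
      have h8 : (1 : ℝ) + (d : ℝ) * -(2 / (Q : ℝ)) ≤ (1 + -(2 / (Q : ℝ))) ^ d := hb
      rw [show (1 : ℝ) + -(2 / (Q : ℝ)) = 1 - 2 / (Q : ℝ) by ring] at h8
      linarith
    have hprodnn : (0 : ℝ) ≤ ∏ p ∈ S, (p : ℝ) := Finset.prod_nonneg (fun p _ => by positivity)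
    calc (5 / 9 : ℝ) ^ d * (1 / 2) * ∏ p ∈ S, (p : ℝ)
        ≤ (5 / 9 : ℝ) ^ d * (1 - 2 / (Q : ℝ)) ^ d * ∏ p ∈ S, (p : ℝ) := by
          apply mul_le_mul_of_nonneg_right _ hprodnn
          apply mul_le_mul_of_nonneg_left h3
          positivity
      _ = β ^ d * ∏ p ∈ S, (p : ℝ) := by rw [hβ, mul_pow]
      _ ≤ ∏ p ∈ S, (pCard p : ℝ) := h2
  · subst h0
    have : S = ∅ := Finset.card_eq_zero.mp hc
    subst this
    norm_num

/-- the numerical constants -/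
lemma const_eq {τ : ℝ} (hτ : 0 < τ) (hτ2 : τ ^ 2 = log (9 / 5) / 2) :
    2 * √(log (81 / 25)) = 4 * τ := by
  have h1 : log (81 / 25 : ℝ) = 2 * log (9 / 5) := by
    rw [show (81 / 25 : ℝ) = (9 / 5) ^ 2 by norm_num, Real.log_pow]
    norm_num
  have h2 : log (81 / 25 : ℝ) = (2 * τ) ^ 2 := by
    rw [h1]
    nlinarith
  rw [h2, Real.sqrt_sq (by positivity)]
  ring

/-- the real inequality in the last step. -/
theorem real_step {Q d : ℕ} {N0 τ w L F : ℝ} (hτ : 0 < τ) (hτ2 : τ ^ 2 = log (9 / 5) / 2)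
    (hQ1 : 1 ≤ Q) (hQup : (Q : ℝ) ≤ exp (τ * w)) (hd1 : 1 ≤ d) (hdw : (d : ℝ) * τ ≤ w)
    (hw2 : w ^ 2 = L) (hL : 78840 / τ ^ 2 ≤ L) (hNnn : 0 ≤ N0) (hFnn : 0 ≤ F)
    (hchain : (5 / 9 : ℝ) ^ d * (1 / 2) * (N0 / 27) ≤ 1460 * (d : ℝ) ^ 2 * (Q : ℝ) ^ 2 * F) :
    N0 * exp (-(4 * τ) * w) / L ^ 2 ≤ F := by
  have hQr : (1 : ℝ) ≤ (Q : ℝ) := by exact_mod_cast hQ1
  have hQpos : (0 : ℝ) < (Q : ℝ) := by linarith
  have hLpos : 0 < L := by
    have : 0 < 78840 / τ ^ 2 := by positivity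
    linarith
  have hwpos : 0 < w := by
    have hd0 : (0 : ℝ) < d := by exact_mod_cast hd1
    have : 0 < (d : ℝ) * τ := by positivity
    linarith
  have hpow : exp (-(2 * τ * w)) ≤ (5 / 9 : ℝ) ^ d := by
    have hlog : log ((5 / 9 : ℝ) ^ d) = -((d : ℝ) * log (9 / 5)) := by
      rw [Real.log_pow, show (5 / 9 : ℝ) = (9 / 5)⁻¹ by norm_num, Real.log_inv]
      ring
    have hpos : (0 : ℝ) < (5 / 9 : ℝ) ^ d := by positivity
    rw [← Real.exp_log hpos, hlog]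
    apply Real.exp_le_exp.mpr
    have hα : log (9 / 5 : ℝ) = 2 * τ ^ 2 := by rw [hτ2]; ring
    rw [hα]
    nlinarith
  have hQ2 : (Q : ℝ) ^ 2 ≤ exp (2 * τ * w) := by
    have h5 : (Q : ℝ) ^ 2 ≤ (exp (τ * w)) ^ 2 := by
      apply pow_le_pow_left₀ hQpos.le hQup
    have h6 : (exp (τ * w)) ^ 2 = exp (2 * τ * w) := by
      rw [← Real.exp_nat_mul]
      congr 1
      push_cast
      ring
    rw [h6] at h5
    exact h5
  have hd2 : (d : ℝ) ^ 2 ≤ L / τ ^ 2 := by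
    rw [le_div_iff₀ (by positivity), ← hw2]
    have : (d : ℝ) * τ ≥ 0 := by positivity
    nlinarith
  have hexp : exp (-(4 * τ) * w) * exp (2 * τ * w) = exp (-(2 * τ * w)) := by
    rw [← Real.exp_add]
    congr 1
    ring
  have hexpos : 0 < exp (-(4 * τ) * w) := Real.exp_pos _
  have hL2 : 0 < L ^ 2 := by positivity
  rw [div_le_iff₀ hL2]
  have h10 : N0 * exp (-(4 * τ) * w) * (Q : ℝ) ^ 2 ≤ N0 * (5 / 9 : ℝ) ^ d := by
    have : exp (-(4 * τ) * w) * (Q : ℝ) ^ 2 ≤ (5 / 9 : ℝ) ^ d := by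
      calc exp (-(4 * τ) * w) * (Q : ℝ) ^ 2 ≤ exp (-(4 * τ) * w) * exp (2 * τ * w) :=
            mul_le_mul_of_nonneg_left hQ2 hexpos.le
        _ = exp (-(2 * τ * w)) := hexp
        _ ≤ _ := hpow
    calc N0 * exp (-(4 * τ) * w) * (Q : ℝ) ^ 2
        = N0 * (exp (-(4 * τ) * w) * (Q : ℝ) ^ 2) := by ring
      _ ≤ _ := mul_le_mul_of_nonneg_left this hNnn
  have h11 : N0 * (5 / 9 : ℝ) ^ d ≤ 78840 * ((d : ℝ) ^ 2 * (Q : ℝ) ^ 2 * F) := by
    calc N0 * (5 / 9 : ℝ) ^ d = 54 * ((5 / 9 : ℝ) ^ d * (1 / 2) * (N0 / 27)) := by ring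
      _ ≤ 54 * (1460 * (d : ℝ) ^ 2 * (Q : ℝ) ^ 2 * F) :=
          mul_le_mul_of_nonneg_left hchain (by norm_num)
      _ = 78840 * ((d : ℝ) ^ 2 * (Q : ℝ) ^ 2 * F) := by ring
  have h12 : (d : ℝ) ^ 2 * 78840 ≤ L ^ 2 := by
    have hτ0 : 0 < τ ^ 2 := by positivity
    have h13 : 78840 ≤ L * τ ^ 2 := by
      rw [div_le_iff₀ hτ0] at hL
      exact hL
    have h14 : (d : ℝ) ^ 2 * τ ^ 2 ≤ L := by
      rwa [le_div_iff₀ hτ0] at hd2
    have h15 : 0 ≤ (d : ℝ) ^ 2 := by positivity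
    nlinarith
  have hQsq : 0 < (Q : ℝ) ^ 2 := by positivity
  have h16 : N0 * exp (-(4 * τ) * w) * (Q : ℝ) ^ 2 ≤ F * L ^ 2 * (Q : ℝ) ^ 2 := by
    calc N0 * exp (-(4 * τ) * w) * (Q : ℝ) ^ 2 ≤ 78840 * ((d : ℝ) ^ 2 * (Q : ℝ) ^ 2 * F) :=
          h10.trans h11
      _ = ((d : ℝ) ^ 2 * 78840) * (F * (Q : ℝ) ^ 2) := by ring
      _ ≤ L ^ 2 * (F * (Q : ℝ) ^ 2) := by
          apply mul_le_mul_of_nonneg_right h12
          positivity
      _ = F * L ^ 2 * (Q : ℝ) ^ 2 := by ring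
  exact le_of_mul_le_mul_right h16 hQsq

/-- the denominators in the counting -/
lemma denom_bound {Q d : ℕ} (hQ1 : 1 ≤ Q) (hd1 : 1 ≤ d) :
    ((d : ℝ) + 1) * ((d : ℝ) * (27 * (Q : ℝ)) ^ 2 + 1) ≤ 1460 * (d : ℝ) ^ 2 * (Q : ℝ) ^ 2 := by
  have hdr : (1 : ℝ) ≤ (d : ℝ) := by exact_mod_cast hd1
  have hQr : (1 : ℝ) ≤ (Q : ℝ) := by exact_mod_cast hQ1
  have a1 : (d : ℝ) + 1 ≤ 2 * (d : ℝ) := by linarith
  have a2 : (d : ℝ) * (27 * (Q : ℝ)) ^ 2 + 1 ≤ 730 * ((d : ℝ) * (Q : ℝ) ^ 2) := by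
    have : (1 : ℝ) ≤ (d : ℝ) * (Q : ℝ) ^ 2 := by nlinarith [sq_nonneg ((Q : ℝ) - 1)]
    nlinarith
  calc ((d : ℝ) + 1) * ((d : ℝ) * (27 * (Q : ℝ)) ^ 2 + 1)
      ≤ (2 * (d : ℝ)) * (730 * ((d : ℝ) * (Q : ℝ) ^ 2)) := by
        apply mul_le_mul a1 a2 (by positivity) (by positivity)
    _ = 1460 * (d : ℝ) ^ 2 * (Q : ℝ) ^ 2 := by ring

/-- the combinatorial conclusion for given parameters. -/
theorem main_step {Q d N : ℕ} {τ w : ℝ} (hτ : 0 < τ) (hτ2 : τ ^ 2 = log (9 / 5) / 2)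
    (hQ3 : 3 ≤ Q) (hQup : (Q : ℝ) ≤ exp (τ * w)) (hd1 : 1 ≤ d) (hdw : (d : ℝ) * τ ≤ w)
    (hw2 : w ^ 2 = log (N : ℝ)) (hL : 78840 / τ ^ 2 ≤ log (N : ℝ))
    (h4d : 4 * d ≤ Q) (h1 : d ≤ (pool Q).card) (h2 : d ≤ (pool (9 * Q)).card)
    (h3 : (3 * Q) ^ d ≤ N) (h4 : N < (9 * Q) ^ d) :
    ∃ A : Finset ℕ, A ⊆ Finset.Icc 1 N ∧
      (∀ a d : ℕ, 0 < d → ¬ (a ∈ A ∧ a + d ∈ A ∧ a + 2 * d ∈ A ∧ a + 3 * d ∈ A)) ∧
      (N : ℝ) * exp (-(2 * √(log (81 / 25))) * √(log (N : ℝ))) / (log (N : ℝ)) ^ 2 ≤ (A.card : ℝ) := by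
  classical
  obtain ⟨S, hSc, hSm, hS1, hS2⟩ := exists_primes h1 h2 h3 h4
  obtain ⟨n, v, hnv⟩ := exists_large_fibre (S := S) (C := 27 * Q) (fun p hp => (hSm p hp).2.2)
  have hdens := goodSet_card_ge (S := S) (Q := Q) (d := d) (by omega) h4d hSc
    (fun p hp => ⟨(hSm p hp).1, (hSm p hp).2.1⟩)
  refine ⟨(fibre S n v).image (· + 1), ?_, ?_, ?_⟩
  · intro x hx
    obtain ⟨y, hy, rfl⟩ := Finset.mem_image.mp hx
    simp only [fibre, goodSet, Finset.mem_filter, Finset.mem_range] at hy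
    simp only [Finset.mem_Icc]
    omega
  · rintro a e he ⟨h0, h1', h2', h3'⟩
    obtain ⟨y0, hy0, e0⟩ := Finset.mem_image.mp h0
    obtain ⟨y1, hy1, e1⟩ := Finset.mem_image.mp h1'
    obtain ⟨y2, hy2, e2⟩ := Finset.mem_image.mp h2'
    obtain ⟨y3, hy3, e3⟩ := Finset.mem_image.mp h3'
    have e1' : y1 = y0 + e := by omega
    have e2' : y2 = y0 + 2 * e := by omega
    have e3' : y3 = y0 + 3 * e := by omega
    subst e1' e2' e3'
    exact fibre_no_ap (fun p hp => ⟨(hSm p hp).1, by have := (hSm p hp).2.1; omega⟩) n v he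
      hy0 hy1 hy2 hy3
  · have hcard : ((fibre S n v).image (· + 1)).card = (fibre S n v).card :=
      Finset.card_image_of_injective _ (fun a b h => by simpa using h)
    rw [hcard, const_eq hτ hτ2]
    have hLpos : 0 < log (N : ℝ) := by
      have : 0 < 78840 / τ ^ 2 := by positivity
      linarith
    have hwpos : 0 < w := by
      have hd0 : (0 : ℝ) < d := by exact_mod_cast hd1
      have : 0 < (d : ℝ) * τ := by positivity
      linarith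
    rw [show √(log (N : ℝ)) = w by rw [← hw2]; exact Real.sqrt_sq hwpos.le]
    have hnv' : ((goodSet S).card : ℝ) ≤
        ((S.card : ℝ) + 1) * ((S.card : ℝ) * (27 * (Q : ℝ)) ^ 2 + 1) * ((fibre S n v).card : ℝ) := by
      exact_mod_cast hnv
    rw [hSc] at hnv'
    have hN27 : (N : ℝ) < 27 * ((∏ p ∈ S, p : ℕ) : ℝ) := by exact_mod_cast hS2
    have hD := denom_bound (Q := Q) (d := d) (by omega) hd1
    refine real_step hτ hτ2 (by omega) hQup hd1 hdw hw2 hL (by positivity) (by positivity) ?_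
    have hM : (N : ℝ) / 27 ≤ ((∏ p ∈ S, p : ℕ) : ℝ) := by
      rw [div_le_iff₀ (by norm_num)]
      linarith
    calc (5 / 9 : ℝ) ^ d * (1 / 2) * ((N : ℝ) / 27)
        ≤ (5 / 9 : ℝ) ^ d * (1 / 2) * ((∏ p ∈ S, p : ℕ) : ℝ) := by
          apply mul_le_mul_of_nonneg_left hM
          positivity
      _ ≤ ((goodSet S).card : ℝ) := hdens
      _ ≤ ((d : ℝ) + 1) * ((d : ℝ) * (27 * (Q : ℝ)) ^ 2 + 1) * ((fibre S n v).card : ℝ) := hnv'
      _ ≤ 1460 * (d : ℝ) ^ 2 * (Q : ℝ) ^ 2 * ((fibre S n v).card : ℝ) := by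
          apply mul_le_mul_of_nonneg_right hD (by positivity)

lemma real_d {D lb τ w l3 : ℝ} (hwpos : 0 < w) (hD : 0 ≤ D) (h1 : τ * w < lb)
    (h2 : lb ≤ l3 + τ * w) (h3 : D * lb ≤ w ^ 2) (h4 : w ^ 2 < (D + 1) * lb) (hτw : l3 ≤ τ * w) :
    D * τ ≤ w ∧ w < 2 * τ * (D + 1) := by
  constructor
  · have h5 : D * τ * w ≤ w * w := by
      have : D * (τ * w) ≤ D * lb := mul_le_mul_of_nonneg_left h1.le hD
      nlinarith
    exact le_of_mul_le_mul_right h5 hwpos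
  · have h5 : w * w < (2 * τ * (D + 1)) * w := by
      have h6 : (D + 1) * lb ≤ (D + 1) * (2 * (τ * w)) := by
        apply mul_le_mul_of_nonneg_left _ (by positivity)
        linarith
      nlinarith
    exact lt_of_mul_lt_mul_right h5 hwpos.le

lemma real_three {D lb τ w l3 η : ℝ} (hτ : 0 < τ) (hl3 : 0 < l3)
    (hη : η = l3 / (2 * τ) - τ) (hηw : 2 * l3 ≤ w * η) (hwlt : w < 2 * τ * (D + 1))
    (h2 : lb ≤ l3 + τ * w) : lb ≤ D * l3 := by
  have h1 : w / (2 * τ) < D + 1 := by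
    rw [div_lt_iff₀ (by positivity)]
    linarith
  have h3 : η * w = w / (2 * τ) * l3 - τ * w := by
    rw [hη]
    field_simp
  have h4 : w / (2 * τ) * l3 < (D + 1) * l3 := mul_lt_mul_of_pos_right h1 hl3
  linarith

lemma real_pool {D τ w lq K : ℝ} (hτ : 0 < τ) (hK : K = 8 / τ ^ 2) (hdw : D * τ ≤ w)
    (h1 : τ * w < lq) : 8 * D ≤ K * lq := by
  have hτ2pos : 0 < τ ^ 2 := by positivity
  have h2 : D * τ ^ 2 ≤ lq := by nlinarith
  rw [hK, div_mul_eq_mul_div, le_div_iff₀ hτ2pos]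
  linarith

lemma real_L {τ w : ℝ} (hτ : 0 < τ) (hwc : 300 / τ ≤ w) :
    78840 / τ ^ 2 ≤ w ^ 2 := by
  have hτ2pos : 0 < τ ^ 2 := by positivity
  rw [div_le_iff₀ hτ2pos]
  rw [div_le_iff₀ hτ] at hwc
  nlinarith

/-- the parameters for a given `N`. -/
theorem params_step {N Q : ℕ} {τ w η K : ℝ} (hτ : 0 < τ) (hτ2 : τ ^ 2 = log (9 / 5) / 2)
    (hη : η = log 3 / (2 * τ) - τ) (hηpos : 0 < η) (hK : K = 8 / τ ^ 2)
    (hw : 1 + log 3 / τ + 2 * log 3 / η + 300 / τ + 8 * τ ≤ w)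
    (hN : 1 ≤ N) (hw2 : w ^ 2 = log (N : ℝ)) (hQ3 : 3 ≤ Q)
    (hQup : (Q : ℝ) ≤ exp (τ * w)) (hQlow : exp (τ * w) < (Q : ℝ) + 1)
    (hp1 : K * log ((Q : ℝ) + 1) ≤ ((pool Q).card : ℝ))
    (hp2 : K * log (((9 * Q : ℕ) : ℝ) + 1) ≤ ((pool (9 * Q)).card : ℝ)) :
    ∃ A : Finset ℕ, A ⊆ Finset.Icc 1 N ∧
      (∀ a d : ℕ, 0 < d → ¬ (a ∈ A ∧ a + d ∈ A ∧ a + 2 * d ∈ A ∧ a + 3 * d ∈ A)) ∧
      (N : ℝ) * exp (-(2 * √(log (81 / 25))) * √(log (N : ℝ))) / (log (N : ℝ)) ^ 2 ≤ (A.card : ℝ) := by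
  have hlog3 : 0 < log (3 : ℝ) := Real.log_pos (by norm_num)
  have ht1 : 0 ≤ log 3 / τ := by positivity
  have ht2 : 0 ≤ 2 * log 3 / η := by positivity
  have ht3 : 0 < 300 / τ := by positivity
  have ht4 : 0 < 8 * τ := by positivity
  have hw1 : 1 ≤ w := by linarith
  have hwa : log 3 / τ ≤ w := by linarith
  have hwb : 2 * log 3 / η ≤ w := by linarith
  have hwc : 300 / τ ≤ w := by linarith
  have hwd : 8 * τ ≤ w := by linarith
  have hwpos : 0 < w := by linarith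
  have hτw : log 3 ≤ τ * w := by
    rw [div_le_iff₀ hτ] at hwa
    linarith
  have hηw : 2 * log 3 ≤ w * η := by
    rwa [div_le_iff₀ hηpos] at hwb
  clear ht1 ht2 ht3 ht4 hw hwa hwb
  set b := 3 * Q with hb
  have hb1 : 1 < b := by omega
  set d := Nat.log b N with hd
  have h3 : b ^ d ≤ N := Nat.pow_log_le_self b (by omega)
  have h5 : N < b ^ (d + 1) := Nat.lt_pow_succ_log_self hb1 N
  have hQpos : (0 : ℝ) < (Q : ℝ) := by
    have : 0 < Q := by omega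
    exact_mod_cast this
  have hbr : ((b : ℕ) : ℝ) = 3 * (Q : ℝ) := by
    rw [hb]
    push_cast
    ring
  have hbpos : (0 : ℝ) < (b : ℝ) := by rw [hbr]; positivity
  have hQ1r : (1 : ℝ) ≤ (Q : ℝ) := by
    have : 1 ≤ Q := by omega
    exact_mod_cast this
  have hl1 : τ * w < log (b : ℝ) := by
    rw [Real.lt_log_iff_exp_lt hbpos, hbr]
    linarith
  have hl2 : log (b : ℝ) ≤ log 3 + τ * w := by
    rw [hbr, Real.log_mul (by norm_num) hQpos.ne']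
    have : log (Q : ℝ) ≤ τ * w := (Real.log_le_iff_le_exp hQpos).mpr hQup
    linarith
  have hNpos : (0 : ℝ) < (N : ℝ) := by
    have : 0 < N := by omega
    exact_mod_cast this
  have hl3 : (d : ℝ) * log (b : ℝ) ≤ w ^ 2 := by
    have : ((b ^ d : ℕ) : ℝ) ≤ (N : ℝ) := by exact_mod_cast h3
    have h := Real.log_le_log (by positivity) this
    push_cast at h
    rw [hw2]
    rwa [Real.log_pow] at h
  have hl4 : w ^ 2 < ((d : ℝ) + 1) * log (b : ℝ) := by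
    have : (N : ℝ) < ((b ^ (d + 1) : ℕ) : ℝ) := by exact_mod_cast h5
    have h := Real.log_lt_log hNpos this
    push_cast at h
    rw [hw2]
    rwa [Real.log_pow, Nat.cast_add, Nat.cast_one] at h
  have hdnn : (0 : ℝ) ≤ (d : ℝ) := by positivity
  obtain ⟨hdw, hwlt⟩ := real_d hwpos hdnn hl1 hl2 hl3 hl4 hτw
  have hd1 : 1 ≤ d := by
    by_contra hcon
    have hd0 : d = 0 := by omega
    rw [hd0] at hwlt
    norm_num at hwlt
    linarith
  have h3d : b ≤ 3 ^ d := by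
    have hmain := real_three hτ hlog3 hη hηw hwlt hl2
    have : log (b : ℝ) ≤ log ((3 : ℝ) ^ d) := by
      rw [Real.log_pow]
      exact hmain
    have h := (Real.log_le_log_iff hbpos (by positivity)).mp this
    exact_mod_cast h
  have h4 : N < (9 * Q) ^ d := by
    calc N < b ^ (d + 1) := h5
      _ = b ^ d * b := pow_succ _ _
      _ ≤ b ^ d * 3 ^ d := Nat.mul_le_mul_left _ h3d
      _ = (b * 3) ^ d := (mul_pow _ _ _).symm
      _ = (9 * Q) ^ d := by rw [hb]; congr 1; ring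
  have hdlog : 8 * (d : ℝ) ≤ K * log ((Q : ℝ) + 1) := by
    have h1 : τ * w < log ((Q : ℝ) + 1) := by
      rw [Real.lt_log_iff_exp_lt (by positivity)]
      exact hQlow
    exact real_pool hτ hK hdw h1
  have hpc1 : 8 * d ≤ (pool Q).card := by
    have : (8 : ℝ) * (d : ℝ) ≤ ((pool Q).card : ℝ) := hdlog.trans hp1
    exact_mod_cast this
  have hpc2 : 8 * d ≤ (pool (9 * Q)).card := by
    have hmono : log ((Q : ℝ) + 1) ≤ log (((9 * Q : ℕ) : ℝ) + 1) := by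
      apply Real.log_le_log (by positivity)
      push_cast
      linarith
    have hKpos : 0 ≤ K := by rw [hK]; positivity
    have : (8 : ℝ) * (d : ℝ) ≤ ((pool (9 * Q)).card : ℝ) :=
      hdlog.trans ((mul_le_mul_of_nonneg_left hmono hKpos).trans hp2)
    exact_mod_cast this
  have hpcard : (pool Q).card ≤ 2 * Q := by
    have h1 : (pool Q).card ≤ (Finset.Ioc Q (3 * Q)).card := Finset.card_filter_le _ _
    rw [Nat.card_Ioc] at h1
    omega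
  have hL : 78840 / τ ^ 2 ≤ log (N : ℝ) := by
    rw [← hw2]
    exact real_L hτ hwc
  exact main_step hτ hτ2 hQ3 hQup hd1 hdw hw2 hL (by omega) (by omega) (by omega) h3 h4

/-- The lower bound for sets without four-term progressions. -/
theorem r4_lower : ∃ N₀ : ℕ, ∀ N : ℕ, N₀ ≤ N → ∃ A : Finset ℕ, A ⊆ Finset.Icc 1 N ∧
    (∀ a d : ℕ, 0 < d → ¬ (a ∈ A ∧ a + d ∈ A ∧ a + 2 * d ∈ A ∧ a + 3 * d ∈ A)) ∧
    (N : ℝ) * exp (-(2 * √(log (81 / 25))) * √(log (N : ℝ))) / (log (N : ℝ)) ^ 2 ≤ (A.card : ℝ) := by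
  have hαpos : 0 < log (9 / 5 : ℝ) := Real.log_pos (by norm_num)
  set τ : ℝ := √(log (9 / 5) / 2) with hτdef
  have hτ : 0 < τ := Real.sqrt_pos.mpr (by positivity)
  have hτ2 : τ ^ 2 = log (9 / 5) / 2 := Real.sq_sqrt (by positivity)
  set η : ℝ := log 3 / (2 * τ) - τ with hη
  have hηpos : 0 < η := by
    rw [hη, sub_pos, lt_div_iff₀ (by positivity)]
    have : log (9 / 5 : ℝ) < log 3 := Real.log_lt_log (by norm_num) (by norm_num)
    nlinarith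
  set K : ℝ := 8 / τ ^ 2 with hK
  have hKnn : 0 ≤ K := by rw [hK]; positivity
  set w₀ : ℝ := 1 + log 3 / τ + 2 * log 3 / η + 300 / τ + 8 * τ with hw₀
  have hw : Filter.Tendsto (fun N : ℕ => √(log (N : ℝ))) Filter.atTop Filter.atTop :=
    Real.tendsto_sqrt_atTop.comp (Real.tendsto_log_atTop.comp tendsto_natCast_atTop_atTop)
  have hexp : Filter.Tendsto (fun N : ℕ => exp (τ * √(log (N : ℝ)))) Filter.atTop Filter.atTop :=
    Real.tendsto_exp_atTop.comp (hw.const_mul_atTop hτ)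
  have hQf : Filter.Tendsto (fun N : ℕ => ⌊exp (τ * √(log (N : ℝ)))⌋₊) Filter.atTop Filter.atTop :=
    tendsto_nat_floor_atTop.comp hexp
  have h9 : Filter.Tendsto (fun Q : ℕ => 9 * Q) Filter.atTop Filter.atTop :=
    Filter.tendsto_atTop_mono (fun Q => by simp; omega) Filter.tendsto_id
  have E1 := hQf.eventually (pool_large K hKnn)
  have E2 := (h9.comp hQf).eventually (pool_large K hKnn)
  have E3 := hw.eventually (Filter.eventually_ge_atTop w₀)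
  have E4 := hQf.eventually (Filter.eventually_ge_atTop 3)
  have E5 : ∀ᶠ N : ℕ in Filter.atTop, 1 ≤ N := Filter.eventually_ge_atTop 1
  obtain ⟨N₀, hN₀⟩ := Filter.eventually_atTop.mp (E1.and (E2.and (E3.and (E4.and E5))))
  refine ⟨N₀, fun N hN => ?_⟩
  obtain ⟨e1, e2, e3, e4, e5⟩ := hN₀ N hN
  have hLnn : 0 ≤ log (N : ℝ) := Real.log_natCast_nonneg N
  have hw2 : (√(log (N : ℝ))) ^ 2 = log (N : ℝ) := Real.sq_sqrt hLnn
  have hexpnn : 0 ≤ exp (τ * √(log (N : ℝ))) := (Real.exp_pos _).le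
  exact params_step hτ hτ2 hη hηpos hK e3 e5 hw2 e4 (Nat.floor_le hexpnn)
    (Nat.lt_floor_add_one _) e1 e2

end Vale.Agent.Lib.P057R
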