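import Mathlib
import Vale.Agent.Lib.P057R.Step

/-!
The top level: the digit set `[0,p/3) ∪ [p/2,3p/4)`, of density `7/12`, and progressions of
at least five terms.
-/

namespace Vale.Agent.Lib.P057R

open Polynomial

/-- the digit set of density `7/12` -/
def dig7 (p r : ℕ) : Prop := 3 * r < p ∨ (p ≤ 2 * r ∧ 4 * r < 3 * p)

instance (p r : ℕ) : Decidable (dig7 p r) := by unfold dig7; infer_instance

/-- the lift of the doubled digit -/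
def yy7 (p r : ℕ) : ℕ := if 3 * r < p then 2 * r else 2 * r - p

lemma dig7_cases {m r : ℕ} (h : dig7 m r) :
    (3 * r < m ∧ yy7 m r = 2 * r) ∨ (m ≤ 2 * r ∧ 4 * r < 3 * m ∧ yy7 m r + m = 2 * r) := by
  unfold dig7 at h
  unfold yy7
  split_ifs <;> omega

lemma core7a {m n r0 r1 r2 r3 r4 δ y0 y1 y2 y3 y4 : ℕ} (hm : m = 2 * n + 1)
    (h0 : (3 * r0 < m ∧ y0 = 2 * r0) ∨ (m ≤ 2 * r0 ∧ 4 * r0 < 3 * m ∧ y0 + m = 2 * r0))
    (h1 : (3 * r1 < m ∧ y1 = 2 * r1) ∨ (m ≤ 2 * r1 ∧ 4 * r1 < 3 * m ∧ y1 + m = 2 * r1))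
    (h2 : (3 * r2 < m ∧ y2 = 2 * r2) ∨ (m ≤ 2 * r2 ∧ 4 * r2 < 3 * m ∧ y2 + m = 2 * r2))
    (h3 : (3 * r3 < m ∧ y3 = 2 * r3) ∨ (m ≤ 2 * r3 ∧ 4 * r3 < 3 * m ∧ y3 + m = 2 * r3))
    (h4 : (3 * r4 < m ∧ y4 = 2 * r4) ∨ (m ≤ 2 * r4 ∧ 4 * r4 < 3 * m ∧ y4 + m = 2 * r4))
    (hδ : δ < m)
    (s1 : r1 = r0 + δ) (s2 : r2 = r1 + δ)
    (s3 : r3 = r2 + δ ∨ r3 + m = r2 + δ)
    (s4 : r4 = r3 + δ ∨ r4 + m = r3 + δ) :
    y0 + y2 = 2 * y1 ∧ y1 + y3 = 2 * y2 ∧ y2 + y4 = 2 * y3 ∧ (0 < δ → y0 ≠ y1) := by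
  rcases s3 with s3 | s3 <;>
    rcases s4 with s4 | s4 <;>
    rcases h0 with h0 | h0 <;> rcases h1 with h1 | h1 <;>
    rcases h2 with h2 | h2 <;> rcases h3 with h3 | h3 <;> rcases h4 with h4 | h4 <;>
     omega

lemma core7b {m n r0 r1 r2 r3 r4 δ y0 y1 y2 y3 y4 : ℕ} (hm : m = 2 * n + 1)
    (h0 : (3 * r0 < m ∧ y0 = 2 * r0) ∨ (m ≤ 2 * r0 ∧ 4 * r0 < 3 * m ∧ y0 + m = 2 * r0))
    (h1 : (3 * r1 < m ∧ y1 = 2 * r1) ∨ (m ≤ 2 * r1 ∧ 4 * r1 < 3 * m ∧ y1 + m = 2 * r1))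
    (h2 : (3 * r2 < m ∧ y2 = 2 * r2) ∨ (m ≤ 2 * r2 ∧ 4 * r2 < 3 * m ∧ y2 + m = 2 * r2))
    (h3 : (3 * r3 < m ∧ y3 = 2 * r3) ∨ (m ≤ 2 * r3 ∧ 4 * r3 < 3 * m ∧ y3 + m = 2 * r3))
    (h4 : (3 * r4 < m ∧ y4 = 2 * r4) ∨ (m ≤ 2 * r4 ∧ 4 * r4 < 3 * m ∧ y4 + m = 2 * r4))
    (hδ : δ < m)
    (s1 : r1 = r0 + δ) (s2 : r2 + m = r1 + δ)
    (s3 : r3 = r2 + δ ∨ r3 + m = r2 + δ)
    (s4 : r4 = r3 + δ ∨ r4 + m = r3 + δ) :
    y0 + y2 = 2 * y1 ∧ y1 + y3 = 2 * y2 ∧ y2 + y4 = 2 * y3 ∧ (0 < δ → y0 ≠ y1) := by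
  rcases s3 with s3 | s3 <;>
    rcases s4 with s4 | s4 <;>
    rcases h0 with h0 | h0 <;> rcases h1 with h1 | h1 <;>
    rcases h2 with h2 | h2 <;> rcases h3 with h3 | h3 <;> rcases h4 with h4 | h4 <;>
     omega

lemma core7c {m n r0 r1 r2 r3 r4 δ y0 y1 y2 y3 y4 : ℕ} (hm : m = 2 * n + 1)
    (h0 : (3 * r0 < m ∧ y0 = 2 * r0) ∨ (m ≤ 2 * r0 ∧ 4 * r0 < 3 * m ∧ y0 + m = 2 * r0))
    (h1 : (3 * r1 < m ∧ y1 = 2 * r1) ∨ (m ≤ 2 * r1 ∧ 4 * r1 < 3 * m ∧ y1 + m = 2 * r1))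
    (h2 : (3 * r2 < m ∧ y2 = 2 * r2) ∨ (m ≤ 2 * r2 ∧ 4 * r2 < 3 * m ∧ y2 + m = 2 * r2))
    (h3 : (3 * r3 < m ∧ y3 = 2 * r3) ∨ (m ≤ 2 * r3 ∧ 4 * r3 < 3 * m ∧ y3 + m = 2 * r3))
    (h4 : (3 * r4 < m ∧ y4 = 2 * r4) ∨ (m ≤ 2 * r4 ∧ 4 * r4 < 3 * m ∧ y4 + m = 2 * r4))
    (hδ : δ < m)
    (s1 : r1 + m = r0 + δ) (s2 : r2 = r1 + δ)
    (s3 : r3 = r2 + δ ∨ r3 + m = r2 + δ)
    (s4 : r4 = r3 + δ ∨ r4 + m = r3 + δ) :
    y0 + y2 = 2 * y1 ∧ y1 + y3 = 2 * y2 ∧ y2 + y4 = 2 * y3 ∧ (0 < δ → y0 ≠ y1) := by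
  rcases s3 with s3 | s3 <;>
    rcases s4 with s4 | s4 <;>
    rcases h0 with h0 | h0 <;> rcases h1 with h1 | h1 <;>
    rcases h2 with h2 | h2 <;> rcases h3 with h3 | h3 <;> rcases h4 with h4 | h4 <;>
     omega

lemma core7d {m n r0 r1 r2 r3 r4 δ y0 y1 y2 y3 y4 : ℕ} (hm : m = 2 * n + 1)
    (h0 : (3 * r0 < m ∧ y0 = 2 * r0) ∨ (m ≤ 2 * r0 ∧ 4 * r0 < 3 * m ∧ y0 + m = 2 * r0))
    (h1 : (3 * r1 < m ∧ y1 = 2 * r1) ∨ (m ≤ 2 * r1 ∧ 4 * r1 < 3 * m ∧ y1 + m = 2 * r1))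
    (h2 : (3 * r2 < m ∧ y2 = 2 * r2) ∨ (m ≤ 2 * r2 ∧ 4 * r2 < 3 * m ∧ y2 + m = 2 * r2))
    (h3 : (3 * r3 < m ∧ y3 = 2 * r3) ∨ (m ≤ 2 * r3 ∧ 4 * r3 < 3 * m ∧ y3 + m = 2 * r3))
    (h4 : (3 * r4 < m ∧ y4 = 2 * r4) ∨ (m ≤ 2 * r4 ∧ 4 * r4 < 3 * m ∧ y4 + m = 2 * r4))
    (hδ : δ < m)
    (s1 : r1 + m = r0 + δ) (s2 : r2 + m = r1 + δ)
    (s3 : r3 = r2 + δ ∨ r3 + m = r2 + δ)
    (s4 : r4 = r3 + δ ∨ r4 + m = r3 + δ) :
    y0 + y2 = 2 * y1 ∧ y1 + y3 = 2 * y2 ∧ y2 + y4 = 2 * y3 ∧ (0 < δ → y0 ≠ y1) := by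
  rcases s3 with s3 | s3 <;>
    rcases s4 with s4 | s4 <;>
    rcases h0 with h0 | h0 <;> rcases h1 with h1 | h1 <;>
    rcases h2 with h2 | h2 <;> rcases h3 with h3 | h3 <;> rcases h4 with h4 | h4 <;>
     omega

/-- the arithmetic core: in five digits of a progression the lifts form a true progression -/
lemma core7 {m r0 r1 r2 r3 r4 δ : ℕ} (hm : Odd m)
    (h0 : dig7 m r0) (h1 : dig7 m r1) (h2 : dig7 m r2) (h3 : dig7 m r3) (h4 : dig7 m r4)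
    (hδ : δ < m)
    (s1 : r1 = r0 + δ ∨ r1 + m = r0 + δ)
    (s2 : r2 = r1 + δ ∨ r2 + m = r1 + δ)
    (s3 : r3 = r2 + δ ∨ r3 + m = r2 + δ)
    (s4 : r4 = r3 + δ ∨ r4 + m = r3 + δ) :
    yy7 m r0 + yy7 m r2 = 2 * yy7 m r1 ∧ yy7 m r1 + yy7 m r3 = 2 * yy7 m r2 ∧
    yy7 m r2 + yy7 m r4 = 2 * yy7 m r3 ∧ (0 < δ → yy7 m r0 ≠ yy7 m r1) := by
  obtain ⟨n, hn⟩ := hm
  have c0 := dig7_cases h0
  have c1 := dig7_cases h1
  have c2 := dig7_cases h2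
  have c3 := dig7_cases h3
  have c4 := dig7_cases h4
  rcases s1 with s1 | s1 <;> rcases s2 with s2 | s2
  · exact core7a hn c0 c1 c2 c3 c4 hδ s1 s2 s3 s4
  · exact core7b hn c0 c1 c2 c3 c4 hδ s1 s2 s3 s4
  · exact core7c hn c0 c1 c2 c3 c4 hδ s1 s2 s3 s4
  · exact core7d hn c0 c1 c2 c3 c4 hδ s1 s2 s3 s4

/-- one step modulo `m` -/
lemma step_cases7 {m x δ : ℕ} (hx : x < m) (hδ : δ < m) :
    (x + δ) % m = x + δ ∨ (x + δ) % m + m = x + δ := by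
  by_cases h : x + δ < m
  · left; exact Nat.mod_eq_of_lt h
  · right
    have h1 : m ≤ x + δ := not_lt.mp h
    have h2 : x + δ - m < m := by omega
    have h3 : (x + δ) % m = x + δ - m := by
      rw [Nat.mod_eq_sub_mod h1, Nat.mod_eq_of_lt h2]
    omega

/-- five terms of a progression with digits in the digit set -/
lemma window7 {p a d : ℕ} (hp : Odd p)
    (h0 : dig7 p (a % p)) (h1 : dig7 p ((a + d) % p)) (h2 : dig7 p ((a + 2 * d) % p))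
    (h3 : dig7 p ((a + 3 * d) % p)) (h4 : dig7 p ((a + 4 * d) % p)) :
    yy7 p (a % p) + yy7 p ((a + 2 * d) % p) = 2 * yy7 p ((a + d) % p) ∧
    yy7 p ((a + d) % p) + yy7 p ((a + 3 * d) % p) = 2 * yy7 p ((a + 2 * d) % p) ∧
    yy7 p ((a + 2 * d) % p) + yy7 p ((a + 4 * d) % p) = 2 * yy7 p ((a + 3 * d) % p) ∧
    (¬ p ∣ d → yy7 p (a % p) ≠ yy7 p ((a + d) % p)) := by
  have hpos : 0 < p := hp.pos
  have hδ : d % p < p := Nat.mod_lt _ hpos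
  have st : ∀ x : ℕ, (x + d) % p = x % p + d % p ∨ (x + d) % p + p = x % p + d % p := by
    intro x
    have := step_cases7 (Nat.mod_lt x hpos) hδ
    rwa [← Nat.add_mod] at this
  have s1 := st a
  have s2 := st (a + d)
  have s3 := st (a + 2 * d)
  have s4 := st (a + 3 * d)
  rw [show a + d + d = a + 2 * d by ring] at s2
  rw [show a + 2 * d + d = a + 3 * d by ring] at s3
  rw [show a + 3 * d + d = a + 4 * d by ring] at s4
  have hc := core7 hp h0 h1 h2 h3 h4 hδ s1 s2 s3 s4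
  refine ⟨hc.1, hc.2.1, hc.2.2.1, fun hd => hc.2.2.2 ?_⟩
  exact Nat.pos_of_ne_zero (fun h0' => hd (Nat.dvd_of_mod_eq_zero h0'))

/-- a sequence with vanishing second differences on `[0,k)` is linear -/
lemma linear_of_second {k : ℕ} {Y : ℕ → ℤ}
    (h : ∀ j, j + 2 < k → Y j + Y (j + 2) = 2 * Y (j + 1)) :
    ∀ j < k, Y j = Y 0 + j * (Y 1 - Y 0) := by
  have key : ∀ j, (j < k → Y j = Y 0 + j * (Y 1 - Y 0)) ∧
      (j + 1 < k → Y (j + 1) = Y 0 + (j + 1 : ℕ) * (Y 1 - Y 0)) := by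
    intro j
    induction j with
    | zero =>
      constructor
      · intro _; simp
      · intro _; simp
    | succ j ih =>
      refine ⟨fun hj => ih.2 hj, fun hj => ?_⟩
      have h1 := ih.1 (by omega)
      have h2 := ih.2 (by omega)
      have h3 := h j (by omega)
      rw [show j + 1 + 1 = j + 2 from rfl]
      push_cast at h2 ⊢
      linarith
  exact fun j hj => (key j).1 hj

/-- the lifted digits along a progression have vanishing second differences -/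
lemma second7 {k p a d : ℕ} (hk : 5 ≤ k) (hp : Odd p)
    (hdig : ∀ j < k, dig7 p ((a + j * d) % p)) (j : ℕ) (hj : j + 2 < k) :
    (yy7 p ((a + j * d) % p) : ℤ) + yy7 p ((a + (j + 2) * d) % p) =
      2 * yy7 p ((a + (j + 1) * d) % p) := by
  have hwin : ∀ i, i + 4 < k →
      ((yy7 p ((a + i * d) % p) : ℤ) + yy7 p ((a + (i + 2) * d) % p) =
        2 * yy7 p ((a + (i + 1) * d) % p) ∧
      (yy7 p ((a + (i + 1) * d) % p) : ℤ) + yy7 p ((a + (i + 3) * d) % p) =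
        2 * yy7 p ((a + (i + 2) * d) % p) ∧
      (yy7 p ((a + (i + 2) * d) % p) : ℤ) + yy7 p ((a + (i + 4) * d) % p) =
        2 * yy7 p ((a + (i + 3) * d) % p)) := by
    intro i hi
    have e1 : a + (i + 1) * d = a + i * d + d := by ring
    have e2 : a + (i + 2) * d = a + i * d + 2 * d := by ring
    have e3 : a + (i + 3) * d = a + i * d + 3 * d := by ring
    have e4 : a + (i + 4) * d = a + i * d + 4 * d := by ring
    have hw := window7 (a := a + i * d) (d := d) hp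
      (hdig i (by omega))
      (by have := hdig (i + 1) (by omega); rwa [e1] at this)
      (by have := hdig (i + 2) (by omega); rwa [e2] at this)
      (by have := hdig (i + 3) (by omega); rwa [e3] at this)
      (by have := hdig (i + 4) (by omega); rwa [e4] at this)
    rw [e1, e2, e3, e4]
    refine ⟨?_, ?_, ?_⟩
    · exact_mod_cast hw.1
    · exact_mod_cast hw.2.1
    · exact_mod_cast hw.2.2.1
  by_cases h1 : j + 4 < k
  · exact (hwin j h1).1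
  · by_cases h2 : j + 3 < k
    · obtain ⟨i, rfl⟩ : ∃ i, j = i + 1 := ⟨j - 1, by omega⟩
      exact (hwin i (by omega)).2.1
    · obtain ⟨i, rfl⟩ : ∃ i, j = i + 2 := ⟨j - 2, by omega⟩
      exact (hwin i (by omega)).2.2

/-- vanishing second differences give a polynomial of degree at most one -/
lemma polySeq_of_second {k : ℕ} {Y : ℕ → ℤ}
    (h : ∀ j, j + 2 < k → Y j + Y (j + 2) = 2 * Y (j + 1)) : PolySeq k 1 Y := by
  have hlin := linear_of_second h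
  refine ⟨C ((Y 1 - Y 0 : ℤ) : ℚ) * X + C (Y 0 : ℚ), Polynomial.natDegree_linear_le, ?_⟩
  intro j hj
  simp only [eval_add, eval_mul, eval_C, eval_X]
  rw [hlin j hj]
  push_cast
  ring

/-- the lifted digits along a progression are a polynomial of degree at most one -/
lemma poly7 {k p a d : ℕ} (hk : 5 ≤ k) (hp : Odd p)
    (hdig : ∀ j < k, dig7 p ((a + j * d) % p)) :
    PolySeq k 1 (fun j => (yy7 p ((a + j * d) % p) : ℤ)) :=
  polySeq_of_second (fun j hj => second7 hk hp hdig j hj)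

/-- constancy of the lifts forces divisibility -/
lemma dvd_of_const7 {k p a d : ℕ} (hk : 5 ≤ k) (hp : Odd p)
    (hdig : ∀ j < k, dig7 p ((a + j * d) % p))
    (h : yy7 p ((a + 1 * d) % p) = yy7 p ((a + 0 * d) % p)) : p ∣ d := by
  by_contra hnd
  have hw := window7 (a := a) (d := d) hp
    (by have := hdig 0 (by omega); simpa using this)
    (by have := hdig 1 (by omega); simpa using this)
    (hdig 2 (by omega)) (hdig 3 (by omega)) (hdig 4 (by omega))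
  apply hw.2.2.2 hnd
  simp only [one_mul, zero_mul, add_zero] at h
  exact h.symm

/-- the sum of squares being constant forces constancy of each polynomial curve -/
lemma const_of_sum {k cap M₁ t : ℕ} {T S₁ : Finset ℕ} (hk : 3 ≤ k)
    (hM₁ : T.card * cap ^ 2 < M₁) (h₁ : ModFree k (2 * 1) M₁ S₁) {Y : ℕ → ℕ → ℕ}
    (hpoly : ∀ p ∈ T, PolySeq k 1 (fun j => (Y p j : ℤ)))
    (hcap : ∀ p ∈ T, ∀ j < k, Y p j ≤ cap)
    (hmem : ∀ j < k, ((∑ p ∈ T, (Y p j) ^ 2) + t) % M₁ ∈ S₁) :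
    ∀ p ∈ T, ∀ j < k, Y p j = Y p 0 := by
  classical
  have hk0 : 0 < k := by omega
  set Φ : ℕ → ℤ := fun j => ∑ p ∈ T, ((Y p j : ℕ) : ℤ) ^ 2 + (t : ℤ) with hΦ
  have hΦpoly : PolySeq k (2 * 1) Φ :=
    polySeq_sum_sq (r := fun p j => (Y p j : ℤ)) (t : ℤ) hpoly
  have hΦmem : ∀ j < k, ∃ v ∈ S₁, (v : ℤ) ≡ Φ j [ZMOD (M₁ : ℕ)] := by
    intro j hj
    refine ⟨_, hmem j hj, ?_⟩
    have h2 : Φ j = (((∑ p ∈ T, (Y p j) ^ 2) + t : ℕ) : ℤ) := by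
      simp only [hΦ]
      push_cast
      rfl
    rw [h2]
    push_cast
    exact Int.mod_modEq _ _
  have hcong := h₁ Φ hΦpoly hΦmem
  have hsqnn : ∀ j, 0 ≤ ∑ p ∈ T, ((Y p j : ℕ) : ℤ) ^ 2 := fun j =>
    Finset.sum_nonneg (fun p _ => sq_nonneg _)
  have hsqle : ∀ j < k, ∑ p ∈ T, ((Y p j : ℕ) : ℤ) ^ 2 ≤ (T.card : ℤ) * (cap : ℤ) ^ 2 := by
    intro j hj
    have : ∑ p ∈ T, ((Y p j : ℕ) : ℤ) ^ 2 ≤ ∑ _p ∈ T, (cap : ℤ) ^ 2 := by
      apply Finset.sum_le_sum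
      intro p hp
      have h3 : ((Y p j : ℕ) : ℤ) ≤ (cap : ℤ) := by exact_mod_cast hcap p hp j hj
      exact pow_le_pow_left₀ (by positivity) h3 2
    simpa [Finset.sum_const, nsmul_eq_mul] using this
  have hM₁z : (T.card : ℤ) * (cap : ℤ) ^ 2 < (M₁ : ℤ) := by exact_mod_cast hM₁
  have hsum : ∀ j < k, ∑ p ∈ T, ((Y p j : ℕ) : ℤ) ^ 2 = ∑ p ∈ T, ((Y p 0 : ℕ) : ℤ) ^ 2 := by
    intro j hj
    have h1 : Φ j ≡ Φ 0 [ZMOD (M₁ : ℕ)] := hcong j hj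
    have h2 : ∑ p ∈ T, ((Y p j : ℕ) : ℤ) ^ 2 ≡ ∑ p ∈ T, ((Y p 0 : ℕ) : ℤ) ^ 2 [ZMOD (M₁ : ℕ)] := by
      simp only [hΦ] at h1
      exact Int.ModEq.add_right_cancel' _ h1
    exact eq_of_modEq_of_bound h2 (hsqnn j) (hsqnn 0) (by linarith [hsqle j hj])
      (by linarith [hsqle 0 hk0])
  choose! P hPdeg hPev using hpoly
  have hsq : ∀ j < k, ∑ p ∈ T, ((P p).eval (j : ℚ)) ^ 2 =
      ((∑ p ∈ T, ((Y p 0 : ℕ) : ℤ) ^ 2 : ℤ) : ℚ) := by
    intro j hj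
    rw [← hsum j hj]
    push_cast
    apply Finset.sum_congr rfl
    intro p hp
    have := hPev p hp j hj
    push_cast at this
    rw [this]
  have hconst := sphere_const T P hPdeg (by omega : 2 * 1 < k) hsq
  intro p hp j hj
  have h1 := hconst p hp j hj
  have h2 := hPev p hp j hj
  have h3 := hPev p hp 0 hk0
  have h4 : (((Y p j : ℕ) : ℤ) : ℚ) = (((Y p 0 : ℕ) : ℤ) : ℚ) := by
    have h5 : (((Y p 0 : ℕ) : ℤ) : ℚ) = (P p).eval 0 := by simpa using h3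
    rw [h2, h1, h5]
  exact_mod_cast h4

/-- the top level combinatorial statement -/
theorem top_comb {k M₁ cap t : ℕ} {T S₁ : Finset ℕ} (hk : 5 ≤ k)
    (hT : ∀ p ∈ T, p.Prime ∧ p ≠ 2 ∧ p ≤ cap) (hM₁ : T.card * cap ^ 2 < M₁)
    (h₁ : ModFree k 2 M₁ S₁) {a d : ℕ} (hd : 0 < d) (hdlt : d < ∏ p ∈ T, p)
    (hmem : ∀ j < k, a + j * d ∈ Sset dig7 yy7 T M₁ S₁ t) : False := by
  classical
  have hTp : ∀ p ∈ T, p.Prime := fun p hp => (hT p hp).1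
  have hodd : ∀ p ∈ T, Odd p := fun p hp => (hT p hp).1.odd_of_ne_two (hT p hp).2.1
  have hdig : ∀ p ∈ T, ∀ j < k, dig7 p ((a + j * d) % p) := by
    intro p hp j hj
    exact (Finset.mem_filter.mp (Finset.mem_filter.mp (hmem j hj)).1).2 p hp
  have hcap : ∀ p ∈ T, ∀ j < k, yy7 p ((a + j * d) % p) ≤ cap := by
    intro p hp j hj
    have h1 := hdig p hp j hj
    have h2 := (hT p hp).2.2
    rcases dig7_cases h1 with h | h <;> omega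
  have hc := const_of_sum (T := T) (cap := cap) (M₁ := M₁) (t := t) (S₁ := S₁)
    (Y := fun p j => yy7 p ((a + j * d) % p)) (by omega) hM₁ h₁
    (fun p hp => poly7 hk (hodd p hp) (hdig p hp)) hcap
    (fun j hj => (Finset.mem_filter.mp (hmem j hj)).2)
  have hall : ∀ p ∈ T, p ∣ d := fun p hp =>
    dvd_of_const7 hk (hodd p hp) (hdig p hp) (hc p hp 1 (by omega))
  have hdvd : ∏ p ∈ T, p ∣ d :=
    Finset.prod_primes_dvd d (fun p hp => (hTp p hp).prime) hall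
  exact absurd (Nat.le_of_dvd hd hdvd) (not_le.mpr hdlt)

/-- density of the digit set -/
lemma dig7_card_ge (p : ℕ) : 7 * p ≤ 12 * ((Finset.range p).filter (dig7 p)).card + 12 := by
  have hsub : (Finset.range ((p + 2) / 3)) ∪ (Finset.Ico ((p + 1) / 2) ((3 * p + 3) / 4))
      ⊆ (Finset.range p).filter (dig7 p) := by
    intro x hx
    simp only [Finset.mem_union, Finset.mem_range, Finset.mem_Ico] at hx
    simp only [Finset.mem_filter, Finset.mem_range, dig7]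
    omega
  have hdisj : Disjoint (Finset.range ((p + 2) / 3))
      (Finset.Ico ((p + 1) / 2) ((3 * p + 3) / 4)) := by
    rw [Finset.disjoint_left]
    intro x hx hx'
    simp only [Finset.mem_range, Finset.mem_Ico] at hx hx'
    omega
  have := Finset.card_le_card hsub
  rw [Finset.card_union_of_disjoint hdisj, Finset.card_range, Nat.card_Ico] at this
  omega

/-- density of the good integers -/
theorem goodG_dig7_card_ge {S : Finset ℕ} {Q d : ℕ} (hQ : 1 ≤ Q) (hd : 4 * d ≤ Q) (hc : S.card = d)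
    (hS : ∀ p ∈ S, p.Prime ∧ Q < p) :
    (7 / 12 : ℝ) ^ d * (1 / 2) * ((∏ p ∈ S, p : ℕ) : ℝ) ≤ ((goodG dig7 S).card : ℝ) := by
  have hQr : (1 : ℝ) ≤ (Q : ℝ) := by exact_mod_cast hQ
  rw [card_goodG _ (fun p hp => (hS p hp).1)]
  push_cast
  set pc : ℕ → ℕ := fun p => ((Finset.range p).filter (dig7 p)).card with hpc
  set β : ℝ := (7 / 12) * (1 - 2 / (Q : ℝ)) with hβ
  have hQ2 : (2 : ℝ) / (Q : ℝ) ≤ 1 / 2 ∨ d = 0 := by
    by_cases h0 : d = 0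
    · exact Or.inr h0
    · left
      have : (4 : ℝ) ≤ (Q : ℝ) := by
        have : 4 ≤ Q := by omega
        exact_mod_cast this
      rw [div_le_iff₀ (by linarith)]
      linarith
  rcases hQ2 with hQ2 | h0
  · have h1 : ∀ p ∈ S, β * (p : ℝ) ≤ (pc p : ℝ) := by
      intro p hp
      have h5 := dig7_card_ge p
      have h5r : (7 : ℝ) * (p : ℝ) ≤ 12 * (pc p : ℝ) + 12 := by exact_mod_cast h5
      have hpQ : (Q : ℝ) < (p : ℝ) := by exact_mod_cast (hS p hp).2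
      have hQpos : (0 : ℝ) < (Q : ℝ) := by linarith
      have h6 : (p : ℝ) * (2 / (Q : ℝ)) ≥ 2 := by
        rw [ge_iff_le, mul_div_assoc', le_div_iff₀ hQpos]
        linarith
      rw [hβ]
      nlinarith
    have h2 : ∏ p ∈ S, (β * (p : ℝ)) ≤ ∏ p ∈ S, (pc p : ℝ) := by
      apply Finset.prod_le_prod
      · intro p hp
        have : 0 ≤ 1 - 2 / (Q : ℝ) := by linarith
        have hp0 : (0 : ℝ) ≤ p := by positivity
        rw [hβ]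
        positivity
      · exact h1
    rw [Finset.prod_mul_distrib, Finset.prod_const, hc] at h2
    have h3 : (1 / 2 : ℝ) ≤ (1 - 2 / (Q : ℝ)) ^ d := by
      have hb := one_add_mul_le_pow (a := -(2 / (Q : ℝ))) (by linarith) d
      have hQpos : (0 : ℝ) < (Q : ℝ) := by linarith
      have hdr : (4 : ℝ) * (d : ℝ) ≤ (Q : ℝ) := by exact_mod_cast hd
      have h7 : (d : ℝ) * (2 / (Q : ℝ)) ≤ 1 / 2 := by
        rw [mul_div_assoc', div_le_iff₀ hQpos]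
        linarith
      have h8 : (1 : ℝ) + (d : ℝ) * -(2 / (Q : ℝ)) ≤ (1 + -(2 / (Q : ℝ))) ^ d := hb
      rw [show (1 : ℝ) + -(2 / (Q : ℝ)) = 1 - 2 / (Q : ℝ) by ring] at h8
      linarith
    have hprodnn : (0 : ℝ) ≤ ∏ p ∈ S, (p : ℝ) := Finset.prod_nonneg (fun p _ => by positivity)
    calc (7 / 12 : ℝ) ^ d * (1 / 2) * ∏ p ∈ S, (p : ℝ)
        ≤ (7 / 12 : ℝ) ^ d * (1 - 2 / (Q : ℝ)) ^ d * ∏ p ∈ S, (p : ℝ) := by
          apply mul_le_mul_of_nonneg_right _ hprodnn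
          apply mul_le_mul_of_nonneg_left h3
          positivity
      _ = β ^ d * ∏ p ∈ S, (p : ℝ) := by rw [hβ, mul_pow]
      _ ≤ ∏ p ∈ S, (pc p : ℝ) := h2
  · subst h0
    have : S = ∅ := Finset.card_eq_zero.mp hc
    subst this
    norm_num

end Vale.Agent.Lib.P057R
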