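import Mathlib
import Vale.Agent.Lib.P057R.Top
import Vale.Agent.Lib.P057R.Asym
import Vale.Agent.Lib.P057R.Main

/-!
The general lower bound.
-/

namespace Vale.Agent.Lib.P057R

open Real

/-- the optimal choice of the parameter -/
lemma opt_eq {β A : ℝ} {m : ℕ} (hm : 1 ≤ m) (hβ : 0 < β) (hA : 0 < A) :
    ∃ τ : ℝ, 0 < τ ∧ β / τ + ((m : ℝ) * A ^ ((1 : ℝ) / m)) * (2 * τ) ^ ((1 : ℝ) / m) =
      ((m + 1 : ℕ) : ℝ) * (2 * β * A) ^ ((1 : ℝ) / ((m + 1 : ℕ) : ℝ)) := by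
  set u : ℝ := (2 * β * A) ^ ((1 : ℝ) / ((m + 1 : ℕ) : ℝ)) with hu
  have hpos : 0 < 2 * β * A := by positivity
  have hupos : 0 < u := Real.rpow_pos_of_pos hpos _
  have hupow : u ^ (m + 1) = 2 * β * A := by
    rw [hu, one_div, Real.rpow_inv_natCast_pow hpos.le (by omega)]
  refine ⟨u ^ m / (2 * A), by positivity, ?_⟩
  have h1 : β / (u ^ m / (2 * A)) = u := by
    have h2 : u ^ m ≠ 0 := by positivity
    field_simp
    rw [pow_succ] at hupow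
    nlinarith
  have h3 : (2 * (u ^ m / (2 * A))) = u ^ m / A := by
    field_simp
  rw [h1, h3, Real.div_rpow (by positivity) hA.le, one_div,
    Real.pow_rpow_inv_natCast hupos.le (by omega)]
  have h4 : A ^ ((m : ℝ)⁻¹) ≠ 0 := (Real.rpow_pos_of_pos hA _).ne'
  push_cast
  field_simp
  ring

/-- the inductive statement with the coefficient in closed form -/
def ClaimA (k D : ℕ) (A : ℝ) (m : ℕ) : Prop := Claim k D ((m : ℝ) * A ^ ((1 : ℝ) / m)) m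

theorem claimA_base (k D : ℕ) : ClaimA k D 1 1 := by
  have := claim_base k D
  simpa [ClaimA] using this

theorem claimA_step {k D m : ℕ} {A : ℝ} (hm : 1 ≤ m) (hk : 2 * D < k) (hD : 1 ≤ D) (hA : 0 < A)
    (h : ClaimA k (2 * D) A m) : ClaimA k D (2 * ((D : ℝ) * log 2) * A) (m + 1) := by
  have hβ : 0 < (D : ℝ) * log 2 := by
    have h1 : (0 : ℝ) < (D : ℝ) := by exact_mod_cast hD
    have h2 : 0 < log (2 : ℝ) := Real.log_pos (by norm_num)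
    positivity
  obtain ⟨τ, hτ, he⟩ := opt_eq hm hβ hA
  have hc : 0 ≤ (m : ℝ) * A ^ ((1 : ℝ) / m) :=
    mul_nonneg (by positivity) (Real.rpow_nonneg hA.le _)
  have hs := claim_step hm hk hc hτ h
  rw [he] at hs
  exact hs

/-- the recursively defined coefficient -/
noncomputable def Acoef : ℕ → ℕ → ℝ
  | _, 0 => 1
  | j, r + 1 => 2 * (((2 ^ j : ℕ) : ℝ) * log 2) * Acoef (j + 1) r

lemma Acoef_pos (r j : ℕ) : 0 < Acoef j r := by
  induction r generalizing j with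
  | zero => simp [Acoef]
  | succ r ih =>
    have h2 : 0 < log (2 : ℝ) := Real.log_pos (by norm_num)
    simp only [Acoef]
    have := ih (j + 1)
    positivity

lemma tri_succ (r : ℕ) : (r + 1) * (r + 2) / 2 = r * (r + 1) / 2 + (r + 1) := by
  have h : (r + 1) * (r + 2) = r * (r + 1) + (r + 1) * 2 := by ring
  rw [h, Nat.add_mul_div_right _ _ (by norm_num)]

/-- the closed form of the coefficient -/
lemma Acoef_eq (r j : ℕ) : Acoef j r = (log 2) ^ r * 2 ^ (r * j + r * (r + 1) / 2) := by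
  induction r generalizing j with
  | zero => simp [Acoef]
  | succ r ih =>
    simp only [Acoef]
    rw [ih (j + 1), tri_succ]
    push_cast
    have e : (r + 1) * j + (r * (r + 1) / 2 + (r + 1)) =
        (r * (j + 1) + r * (r + 1) / 2) + j + 1 := by ring
    rw [e]
    ring

theorem claimA_all (k : ℕ) (r : ℕ) : ∀ j, 2 ^ (j + r) < k → ClaimA k (2 ^ j) (Acoef j r) (r + 1) := by
  induction r with
  | zero =>
    intro j _
    simpa [Acoef] using claimA_base k (2 ^ j)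
  | succ r ih =>
    intro j hj
    have h1 : 2 ^ (j + 1 + r) < k := by
      rwa [show j + 1 + r = j + (r + 1) by ring]
    have h2 := ih (j + 1) h1
    rw [pow_succ, mul_comm (2 ^ j) 2] at h2
    have h3 : 2 * 2 ^ j < k := by
      have h4 : 2 * 2 ^ j ≤ 2 ^ (j + (r + 1)) := by
        rw [← pow_succ']
        exact Nat.pow_le_pow_right (by norm_num) (by omega)
      omega
    have h5 := claimA_step (by omega) h3 (Nat.one_le_two_pow) (Acoef_pos r (j + 1)) h2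
    exact h5

/-- the facts on the parameters at the top level -/
lemma top_param_facts {τ w : ℝ} {m : ℕ} {A : ℝ} {N : ℕ} (hm : 1 ≤ m) (hτ : 0 < τ) (hw1 : 1 ≤ w)
    (hwτ : τ ≤ w) (hwτ2 : 30 ≤ τ * w)
    (hA : A = 82 * (1 / τ + 1)) (hN : 1 ≤ N) (hy : log (N : ℝ) = w ^ (m + 1))
    (Q d : ℕ) (hd : d = ⌈w / τ⌉₊) (hQ : Q = ⌊exp (w ^ (m + 1) / (d : ℝ)) / 3⌋₊) :
    1 ≤ d ∧ (d : ℝ) ≤ w / τ + 1 ∧ (3 * Q) ^ d ≤ N ∧ N < (9 * Q) ^ d ∧
    τ * w ^ m / 6 - 1 < (Q : ℝ) ∧ τ * w ^ m / 4 ≤ log ((Q : ℝ) + 1) ∧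
    ((d : ℝ) * (27 * (Q : ℝ)) ^ 2 + 1) ≤ A * (w + 1) * exp (2 * τ * w ^ m) := by
  have hw0 : 0 < w := by linarith
  have hwτ0 : 0 < w / τ := by positivity
  have hwτ1 : 1 ≤ w / τ := by
    rw [le_div_iff₀ hτ]
    linarith
  have hd1 : 1 ≤ d := by
    rw [hd]
    exact Nat.one_le_ceil_iff.mpr hwτ0
  have hdle : (d : ℝ) ≤ w / τ + 1 := by
    rw [hd]
    exact (Nat.ceil_lt_add_one hwτ0.le).le
  have hdge : w / τ ≤ d := by
    rw [hd]
    exact Nat.le_ceil _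
  have hdpos : (0 : ℝ) < (d : ℝ) := by exact_mod_cast hd1
  set t : ℝ := τ * w ^ m with ht
  have hwm : w ≤ w ^ m := by
    calc w = w ^ 1 := (pow_one w).symm
      _ ≤ w ^ m := pow_le_pow_right₀ hw1 hm
  have ht30 : 30 ≤ t := by
    have : τ * w ≤ t := mul_le_mul_of_nonneg_left hwm hτ.le
    linarith
  set e : ℝ := w ^ (m + 1) / (d : ℝ) with he
  -- bounds on the exponent
  have hwp : w ^ (m + 1) = w * w ^ m := by ring
  have hdτ : w ≤ (d : ℝ) * τ := by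
    rwa [div_le_iff₀ hτ] at hdge
  have hdτ2 : (d : ℝ) * τ ≤ 2 * w := by
    have h1 : (d : ℝ) ≤ 2 * (w / τ) := by linarith
    calc (d : ℝ) * τ ≤ 2 * (w / τ) * τ := mul_le_mul_of_nonneg_right h1 hτ.le
      _ = 2 * w := by field_simp
  have hwmpos : 0 < w ^ m := by positivity
  have he1 : e ≤ t := by
    rw [he, div_le_iff₀ hdpos, hwp, ht]
    nlinarith
  have he2 : t / 2 ≤ e := by
    rw [he, le_div_iff₀ hdpos, hwp, ht]
    nlinarith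
  set E : ℝ := exp e with hE
  have hEpos : 0 < E := Real.exp_pos _
  have hEge : e + 1 ≤ E := Real.add_one_le_exp e
  have hE15 : 15 ≤ E := by linarith
  have hQfl : (Q : ℝ) ≤ E / 3 := by
    rw [hQ]
    exact Nat.floor_le (by positivity)
  have hQlt : E / 3 < (Q : ℝ) + 1 := by
    rw [hQ]
    exact Nat.lt_floor_add_one _
  have hEd : E ^ d = (N : ℝ) := by
    have hNpos : (0 : ℝ) < (N : ℝ) := by
      have : 0 < N := by omega
      exact_mod_cast this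
    rw [hE, ← Real.exp_nat_mul, he, mul_div_cancel₀ _ hdpos.ne', ← hy, Real.exp_log hNpos]
  have h3Q : (3 * (Q : ℝ)) ≤ E := by linarith
  have h9Q : E < 9 * (Q : ℝ) := by linarith
  have hQ0 : (0 : ℝ) ≤ (Q : ℝ) := by positivity
  have hp1 : (3 * Q) ^ d ≤ N := by
    have : (3 * (Q : ℝ)) ^ d ≤ (N : ℝ) := by
      rw [← hEd]
      exact pow_le_pow_left₀ (by positivity) h3Q d
    exact_mod_cast this
  have hp2 : N < (9 * Q) ^ d := by
    have : (N : ℝ) < (9 * (Q : ℝ)) ^ d := by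
      rw [← hEd]
      exact pow_lt_pow_left₀ h9Q hEpos.le (by omega)
    exact_mod_cast this
  have hQbig : t / 6 - 1 < (Q : ℝ) := by linarith
  have hlog : t / 4 ≤ log ((Q : ℝ) + 1) := by
    have h1 : log (E / 3) ≤ log ((Q : ℝ) + 1) :=
      Real.log_le_log (by positivity) hQlt.le
    have h2 : log (E / 3) = e - log 3 := by
      rw [Real.log_div hEpos.ne' (by norm_num), hE, Real.log_exp]
    have h3 : log (3 : ℝ) ≤ 3 - 1 := by
      have := Real.log_le_sub_one_of_pos (show (0 : ℝ) < 3 by norm_num)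
      linarith
    linarith
  refine ⟨hd1, hdle, hp1, hp2, hQbig, hlog, ?_⟩
  have ht0 : 0 ≤ t := by linarith
  have hexp1 : 1 ≤ exp t := Real.one_le_exp ht0
  have hEle : E ≤ exp t := Real.exp_le_exp.mpr he1
  have hexp2 : exp (2 * τ * w ^ m) = exp t ^ 2 := by
    rw [← Real.exp_nat_mul]
    congr 1
    rw [ht]
    push_cast
    ring
  rw [hexp2]
  have hQsq : (27 * (Q : ℝ)) ^ 2 ≤ 81 * exp t ^ 2 := by
    have : 27 * (Q : ℝ) ≤ 9 * exp t := by linarith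
    have h2 := pow_le_pow_left₀ (by positivity) this 2
    calc (27 * (Q : ℝ)) ^ 2 ≤ (9 * exp t) ^ 2 := h2
      _ = 81 * exp t ^ 2 := by ring
  have hdr : (1 : ℝ) ≤ (d : ℝ) := by exact_mod_cast hd1
  have he2' : 1 ≤ exp t ^ 2 := one_le_pow₀ hexp1
  have hdw : (d : ℝ) ≤ (1 / τ + 1) * (w + 1) := by
    have h5 : w / τ = (1 / τ) * w := by ring
    have h6 : 0 ≤ 1 / τ := by positivity
    rw [h5] at hdle
    nlinarith
  calc (d : ℝ) * (27 * (Q : ℝ)) ^ 2 + 1 ≤ (d : ℝ) * (81 * exp t ^ 2) + (d : ℝ) * exp t ^ 2 := by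
        have h7 : (d : ℝ) * (27 * (Q : ℝ)) ^ 2 ≤ (d : ℝ) * (81 * exp t ^ 2) :=
          mul_le_mul_of_nonneg_left hQsq (by positivity)
        have h8 : 1 ≤ (d : ℝ) * exp t ^ 2 := by nlinarith
        linarith
    _ = 82 * (d : ℝ) * exp t ^ 2 := by ring
    _ ≤ 82 * ((1 / τ + 1) * (w + 1)) * exp t ^ 2 := by
        apply mul_le_mul_of_nonneg_right _ (by positivity)
        linarith
    _ = A * (w + 1) * exp t ^ 2 := by rw [hA]; ring

/-- the number of primes at the top level -/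
lemma top_pool {τ w K : ℝ} {m d Q Q' : ℕ} (hm : 1 ≤ m) (hτ : 0 < τ) (hw1 : 1 ≤ w) (hwτ : τ ≤ w)
    (hK : K = 64 / τ ^ 2) (hdle : (d : ℝ) ≤ w / τ + 1) (hQQ' : Q ≤ Q')
    (hlog : τ * w ^ m / 4 ≤ log ((Q : ℝ) + 1))
    (hpool : K * log ((Q' : ℝ) + 1) ≤ ((pool Q').card : ℝ)) : 8 * d ≤ (pool Q').card := by
  have hwm : w ≤ w ^ m := by
    calc w = w ^ 1 := (pow_one w).symm
      _ ≤ w ^ m := pow_le_pow_right₀ hw1 hm
  have hKnn : 0 ≤ K := by rw [hK]; positivity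
  have hmono : log ((Q : ℝ) + 1) ≤ log ((Q' : ℝ) + 1) := by
    apply Real.log_le_log (by positivity)
    have : (Q : ℝ) ≤ (Q' : ℝ) := by exact_mod_cast hQQ'
    linarith
  have h1 : K * (τ * w / 4) ≤ ((pool Q').card : ℝ) := by
    have h2 : τ * w / 4 ≤ log ((Q' : ℝ) + 1) := by
      have : τ * w ≤ τ * w ^ m := mul_le_mul_of_nonneg_left hwm hτ.le
      linarith
    exact (mul_le_mul_of_nonneg_left h2 hKnn).trans hpool
  have h3 : K * (τ * w / 4) = 16 * (w / τ) := by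
    rw [hK]
    field_simp
    ring
  have h4 : 1 ≤ w / τ := by
    rw [le_div_iff₀ hτ]
    linarith
  have h5 : (8 : ℝ) * (d : ℝ) ≤ ((pool Q').card : ℝ) := by
    rw [h3] at h1
    linarith
  exact_mod_cast h5

/-- the exponential form of the density -/
lemma seven_pow_eq (d : ℕ) :
    (7 / 12 : ℝ) ^ d * (1 / 54) = exp (-(log (12 / 7) * (d : ℝ) + log 54)) := by
  have h2 : (0 : ℝ) < (7 / 12 : ℝ) ^ d * (1 / 54) := by positivity
  rw [← Real.exp_log h2, Real.log_mul (by positivity) (by norm_num), Real.log_pow,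
    show (7 / 12 : ℝ) = (12 / 7)⁻¹ by norm_num, Real.log_inv, one_div, Real.log_inv]
  congr 1
  ring

/-- the top level count -/
lemma top_count {M₁ t : ℕ} {T S₁ : Finset ℕ} {N Q d : ℕ} {F₁ : ℝ}
    (hTc : T.card = d)
    (hQ1 : 1 ≤ Q) (h4d : 4 * d ≤ Q) (hT : ∀ p ∈ T, p.Prime ∧ Q < p)
    (hN : N < 27 * ∏ p ∈ T, p) (hF₁ : F₁ = (S₁.card : ℝ))
    (ht : (goodG dig7 T).card * S₁.card ≤ M₁ * (Sset dig7 yy7 T M₁ S₁ t).card) :
    (N : ℝ) * exp (-(log (12 / 7) * (d : ℝ) + log 54)) * F₁ ≤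
      (M₁ : ℝ) * ((Sset dig7 yy7 T M₁ S₁ t).card : ℝ) := by
  have h1 := goodG_dig7_card_ge hQ1 h4d hTc hT
  have h2 : ((goodG dig7 T).card : ℝ) * (S₁.card : ℝ) ≤
      (M₁ : ℝ) * ((Sset dig7 yy7 T M₁ S₁ t).card : ℝ) := by exact_mod_cast ht
  have h3 : (N : ℝ) < 27 * ((∏ p ∈ T, p : ℕ) : ℝ) := by exact_mod_cast hN
  rw [← seven_pow_eq, hF₁]
  refine le_trans ?_ h2
  apply mul_le_mul_of_nonneg_right _ (by positivity)
  refine le_trans ?_ h1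
  have h4 : (0 : ℝ) ≤ (7 / 12 : ℝ) ^ d := by positivity
  nlinarith

/-- translate a set of residues to a subset of `[1,N]` -/
lemma top_ap_free {k N M₁ cap t : ℕ} {T S₁ : Finset ℕ} (hk : 5 ≤ k)
    (hT : ∀ p ∈ T, p.Prime ∧ p ≠ 2 ∧ p ≤ cap) (hM₁ : T.card * cap ^ 2 < M₁)
    (h₁ : ModFree k 2 M₁ S₁) (hN : ∏ p ∈ T, p ≤ N) :
    ((Sset dig7 yy7 T M₁ S₁ t).image (· + 1)) ⊆ Finset.Icc 1 N ∧
    (∀ a d : ℕ, 0 < d → ¬ ∀ j < k, a + j * d ∈ (Sset dig7 yy7 T M₁ S₁ t).image (· + 1)) ∧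
    ((Sset dig7 yy7 T M₁ S₁ t).image (· + 1)).card = (Sset dig7 yy7 T M₁ S₁ t).card := by
  refine ⟨?_, ?_, Finset.card_image_of_injective _ (fun a b h => by simpa using h)⟩
  · intro x hx
    obtain ⟨y, hy, rfl⟩ := Finset.mem_image.mp hx
    have h1 := Finset.mem_range.mp (Finset.mem_filter.mp (Finset.mem_filter.mp hy).1).1
    simp only [Finset.mem_Icc]
    omega
  · intro a d hd hall
    have ha1 : 1 ≤ a := by
      obtain ⟨y, _, hy⟩ := Finset.mem_image.mp (hall 0 (by omega))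
      simp only [zero_mul, add_zero] at hy
      omega
    have hmem : ∀ j < k, (a - 1) + j * d ∈ Sset dig7 yy7 T M₁ S₁ t := by
      intro j hj
      obtain ⟨y, hy, hy'⟩ := Finset.mem_image.mp (hall j hj)
      have hy'' : y + 1 = a + j * d := hy'
      have : y = (a - 1) + j * d := by
        omega
      rwa [← this]
    have hlt : d < ∏ p ∈ T, p := by
      have h1 := Finset.mem_range.mp
        (Finset.mem_filter.mp (Finset.mem_filter.mp (hmem 1 (by omega))).1).1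
      simp only [one_mul] at h1
      omega
    exact top_comb hk hT hM₁ h₁ hd hlt hmem

/-- the top step at a fixed scale -/
theorem top_at {k m N X₀ Q₁ : ℕ} {τ w c' c ε₁ A K : ℝ} (hm : 1 ≤ m) (hk : 5 ≤ k)
    (hτ : 0 < τ) (hA : A = 82 * (1 / τ + 1)) (hK : K = 64 / τ ^ 2)
    (hw1 : 1 ≤ w) (hwτ : τ ≤ w) (hwbig : 6 * ((X₀ : ℝ) + (Q₁ : ℝ) + 5) ≤ τ * w)
    (hN : 1 ≤ N) (hy : log (N : ℝ) = w ^ (m + 1))
    (hpool : ∀ Q, Q₁ ≤ Q → K * log ((Q : ℝ) + 1) ≤ ((pool Q).card : ℝ))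
    (hreal : ∀ d Z : ℝ, 1 ≤ Z → d ≤ w / τ + 1 → Z ≤ A * (w + 1) * exp (2 * τ * w ^ m) →
      log (12 / 7) * d + (c + ε₁) * (log Z) ^ ((1 : ℝ) / m) + log 54 ≤ c' * w)
    (hIH : ∀ X : ℕ, X₀ ≤ X → ∃ (M : ℕ) (S : Finset ℕ),
      X ≤ M ∧ 0 < M ∧ S ⊆ Finset.range M ∧ ModFree k 2 M S ∧
      (M : ℝ) * exp (-((c + ε₁) * (log (X : ℝ)) ^ ((1 : ℝ) / m))) ≤ (S.card : ℝ)) :
    ∃ B : Finset ℕ, B ⊆ Finset.Icc 1 N ∧ (∀ a d : ℕ, 0 < d → ¬ ∀ j < k, a + j * d ∈ B) ∧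
      (N : ℝ) * exp (-(c' * w)) ≤ (B.card : ℝ) := by
  have hx0 : (0 : ℝ) ≤ (X₀ : ℝ) := by positivity
  have hq0 : (0 : ℝ) ≤ (Q₁ : ℝ) := by positivity
  have hwτ2 : 30 ≤ τ * w := by linarith
  set d : ℕ := ⌈w / τ⌉₊ with hd
  set Q : ℕ := ⌊exp (w ^ (m + 1) / (d : ℝ)) / 3⌋₊ with hQ
  obtain ⟨hd1, hdle, hp1, hp2, hQbig, hlog, hZle⟩ :=
    top_param_facts hm hτ hw1 hwτ hwτ2 hA hN hy Q d hd hQ
  have hwm : w ≤ w ^ m := by
    calc w = w ^ 1 := (pow_one w).symm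
      _ ≤ w ^ m := pow_le_pow_right₀ hw1 hm
  have htw : τ * w ≤ τ * w ^ m := mul_le_mul_of_nonneg_left hwm hτ.le
  have hQr : (X₀ : ℝ) + (Q₁ : ℝ) + 4 < (Q : ℝ) := by linarith
  have hQ4 : X₀ + Q₁ + 4 ≤ Q := by
    have : ((X₀ + Q₁ + 4 : ℕ) : ℝ) < (Q : ℝ) := by
      push_cast
      exact hQr
    have h2 : X₀ + Q₁ + 4 < Q := by exact_mod_cast this
    omega
  have hc1 := top_pool hm hτ hw1 hwτ hK hdle (le_refl Q) hlog (hpool Q (by omega))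
  have hc2 := top_pool (Q' := 9 * Q) hm hτ hw1 hwτ hK hdle (by omega) hlog
    (hpool (9 * Q) (by omega))
  have hpcard : (pool Q).card ≤ 2 * Q := by
    have h1 : (pool Q).card ≤ (Finset.Ioc Q (3 * Q)).card := Finset.card_filter_le _ _
    rw [Nat.card_Ioc] at h1
    omega
  obtain ⟨T, hTc, hTm, hT1, hT2⟩ := exists_primes (by omega) (by omega) hp1 hp2
  -- the lower level
  set Z : ℕ := d * (27 * Q) ^ 2 + 1 with hZ
  have hZr : (Z : ℝ) = (d : ℝ) * (27 * (Q : ℝ)) ^ 2 + 1 := by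
    rw [hZ]
    push_cast
    ring
  have hZX₀ : X₀ ≤ Z := by
    have h3 : Q ≤ d * (27 * Q) ^ 2 := by
      have h4 : Q ≤ (27 * Q) ^ 2 := by nlinarith
      exact h4.trans (Nat.le_mul_of_pos_left _ (by omega))
    omega
  obtain ⟨M₁, S₁, hZM, hM₁pos, hS₁, hfree, hdens⟩ := hIH Z hZX₀
  have hM₁ : T.card * (27 * Q) ^ 2 < M₁ := by
    rw [hTc]
    omega
  obtain ⟨t, ht⟩ := exists_translate dig7 yy7 T hM₁pos hS₁
  have hTall : ∀ p ∈ T, p.Prime ∧ p ≠ 2 ∧ p ≤ 27 * Q := fun p hp =>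
    ⟨(hTm p hp).1, by have := (hTm p hp).2.1; omega, (hTm p hp).2.2⟩
  obtain ⟨hB1, hB2, hB3⟩ := top_ap_free (t := t) hk hTall hM₁ hfree hT1
  refine ⟨_, hB1, hB2, ?_⟩
  rw [hB3]
  have hZ1 : (1 : ℝ) ≤ (Z : ℝ) := by
    rw [hZr]
    have : 0 ≤ (d : ℝ) * (27 * (Q : ℝ)) ^ 2 := by positivity
    linarith
  have hkey := hreal (d : ℝ) (Z : ℝ) hZ1 hdle (by rw [hZr]; exact hZle)
  have hM₁r : (0 : ℝ) < (M₁ : ℝ) := by exact_mod_cast hM₁pos
  have hcount := top_count (N := N) (Q := Q) (d := d) (F₁ := (S₁.card : ℝ)) hTc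
    (by omega) (by omega) (fun p hp => ⟨(hTm p hp).1, (hTm p hp).2.1⟩) hT2 rfl ht
  refine density_comb (by positivity) hM₁r hcount hdens ?_
  linarith

/-- the top step -/
theorem top_final {k m : ℕ} {c τ : ℝ} (hm : 1 ≤ m) (hk : 5 ≤ k) (hc : 0 ≤ c) (hτ : 0 < τ)
    (h : Claim k 2 c m) (ε : ℝ) (hε : 0 < ε) : ∃ N₀ : ℕ, ∀ N : ℕ, N₀ ≤ N →
    ∃ B : Finset ℕ, B ⊆ Finset.Icc 1 N ∧ (∀ a d : ℕ, 0 < d → ¬ ∀ j < k, a + j * d ∈ B) ∧
      (N : ℝ) * exp (-((log (12 / 7) / τ + c * (2 * τ) ^ ((1 : ℝ) / m) + ε) *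
        (log (N : ℝ)) ^ ((1 : ℝ) / ((m + 1 : ℕ) : ℝ)))) ≤ (B.card : ℝ) := by
  have hβnn : 0 ≤ log (12 / 7 : ℝ) := Real.log_nonneg (by norm_num)
  set A : ℝ := 82 * (1 / τ + 1) with hA
  have hA1 : 1 ≤ A := by
    have : 0 ≤ 1 / τ := by positivity
    rw [hA]
    linarith
  set K : ℝ := 64 / τ ^ 2 with hK
  have hKnn : 0 ≤ K := by rw [hK]; positivity
  obtain ⟨ε₁, hε₁, w₀, hw₀⟩ := real_key (C₀ := log 54) (A := A) hm hβnn hc hτ hε hA1
  obtain ⟨X₀, hX₀⟩ := h ε₁ hε₁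
  obtain ⟨Q₁, hQ₁⟩ := Filter.eventually_atTop.mp (pool_large K hKnn)
  set w₂ : ℝ := max (max w₀ 1) (max τ ((6 * ((X₀ : ℝ) + (Q₁ : ℝ) + 5)) / τ)) with hw₂
  have hw₂1 : 1 ≤ w₂ := le_trans (le_max_right _ _) (le_max_left _ _)
  have hw₂0 : 0 ≤ w₂ := by linarith
  refine ⟨⌈exp (w₂ ^ (m + 1))⌉₊ + 1, fun N hNge => ?_⟩
  have hN1 : 1 ≤ N := by omega
  have hNr : exp (w₂ ^ (m + 1)) ≤ (N : ℝ) := by
    have h1 : ⌈exp (w₂ ^ (m + 1))⌉₊ ≤ N := by omega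
    exact (Nat.le_ceil _).trans (by exact_mod_cast h1)
  obtain ⟨hw0, hwp⟩ := scale_facts (m := m) N
  have hwge := scale_large hw₂0 hNr
  set w : ℝ := (log (N : ℝ)) ^ ((1 : ℝ) / ((m + 1 : ℕ) : ℝ)) with hw
  have hw1 : 1 ≤ w := hw₂1.trans hwge
  have hwτ : τ ≤ w := (le_trans (le_max_left _ _) (le_max_right _ _)).trans hwge
  have hwsum : (6 * ((X₀ : ℝ) + (Q₁ : ℝ) + 5)) / τ ≤ w :=
    (le_trans (le_max_right _ _) (le_max_right _ _)).trans hwge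
  have hwbig : 6 * ((X₀ : ℝ) + (Q₁ : ℝ) + 5) ≤ τ * w := by
    rw [div_le_iff₀ hτ] at hwsum
    linarith
  have hreal := hw₀ w ((le_trans (le_max_left _ _) (le_max_left _ _)).trans hwge) hw0
  exact top_at (c := c) (ε₁ := ε₁) (A := A) (K := K) (X₀ := X₀) (Q₁ := Q₁) hm hk hτ hA hK hw1 hwτ
    hwbig hN1 hwp.symm hQ₁ hreal hX₀

/-- The general lower bound, with the constant in recursive form. -/
theorem general_lower (r : ℕ) (k : ℕ) (hk5 : 5 ≤ k) (hk : 2 ^ (r + 1) < k) (hr : 1 ≤ r) (ε : ℝ) (hε : 0 < ε) :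
    ∃ N₀ : ℕ, ∀ N : ℕ, N₀ ≤ N →
    ∃ B : Finset ℕ, B ⊆ Finset.Icc 1 N ∧ (∀ a d : ℕ, 0 < d → ¬ ∀ j < k, a + j * d ∈ B) ∧
      (N : ℝ) * exp (-((((r + 2 : ℕ) : ℝ) * (2 * log (12 / 7) * Acoef 1 r) ^ ((1 : ℝ) / ((r + 2 : ℕ) : ℝ)) + ε) *
        (log (N : ℝ)) ^ ((1 : ℝ) / ((r + 2 : ℕ) : ℝ)))) ≤ (B.card : ℝ) := by
  have hα : 0 < log (12 / 7 : ℝ) := Real.log_pos (by norm_num)
  have hc := claimA_all k r 1 (by rwa [add_comm])
  rw [pow_one] at hc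
  obtain ⟨τ, hτ, he⟩ := opt_eq (m := r + 1) (by omega) hα (Acoef_pos r 1)
  have hcnn : 0 ≤ (((r + 1 : ℕ) : ℝ)) * (Acoef 1 r) ^ ((1 : ℝ) / ((r + 1 : ℕ) : ℝ)) :=
    mul_nonneg (by positivity) (Real.rpow_nonneg (Acoef_pos r 1).le _)
  have hmain := top_final (m := r + 1) (by omega) hk5 hcnn hτ hc ε hε
  rw [he] at hmain
  exact hmain

end Vale.Agent.Lib.P057R
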